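import Vale.Agent.L1Bass.Main

set_option linter.unusedSectionVars false

namespace Vale.Agent.L1Bass

open Filter Topology

universe u v

variable {G : Type u} [Group G]

/-- A cocycle from an equivariant coordinate function. -/
lemma cocycle_of_F (g : G) (F : G → ℝ) (L : G → ℝ)
    (hF : ∀ k s, |F (k * s) - F s| ≤ L k)
    (hz : ∀ z, z * g = g * z → ∀ s, F (s * z) - F s = F z - F 1)
    (hg : F g - F 1 ≠ 0) :
    ∃ (ω : G → G → ℂ) (K : ℝ), 0 ≤ K ∧ (∀ x y, ‖ω x y‖ ≤ K * L y) ∧
      (∀ x y z, ω x (y * z) = ω (x * y) z + ω (z * x) y) ∧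
      ω 1 = chi (ConjClasses.mk g) := by
  classical
  have hL0 : ∀ k, 0 ≤ L k := fun k => (abs_nonneg _).trans (hF k 1)
  have hcyc : ∀ x y : G, ConjClasses.mk (x * y) = ConjClasses.mk (y * x) := by
    intro x y
    rw [ConjClasses.mk_eq_mk_iff_isConj]
    exact isConj_iff.mpr ⟨y, by group⟩
  -- well definedness
  have wd : ∀ s t y : G, s * g * s⁻¹ = t * g * t⁻¹ → F (y * s) - F s = F (y * t) - F t := by
    intro s t y h
    have hzz : (s⁻¹ * t) * g = g * (s⁻¹ * t) := by
      have h2 : t * g = s * g * s⁻¹ * t := by rw [h]; group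
      calc (s⁻¹ * t) * g = s⁻¹ * (t * g) := by group
        _ = s⁻¹ * (s * g * s⁻¹ * t) := by rw [h2]
        _ = g * (s⁻¹ * t) := by group
    have h1 := hz _ hzz s
    have h2 := hz _ hzz (y * s)
    have e1 : s * (s⁻¹ * t) = t := by group
    have e2 : y * s * (s⁻¹ * t) = y * t := by group
    rw [e1] at h1
    rw [e2] at h2
    linarith
  have ex : ∀ x : G, ConjClasses.mk x = ConjClasses.mk g → ∃ s, s * g * s⁻¹ = x := by
    intro x hx
    rw [ConjClasses.mk_eq_mk_iff_isConj] at hx
    exact isConj_iff.mp hx.symm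
  let sec : G → G := fun x => if h : ∃ s, s * g * s⁻¹ = x then Classical.choose h else 1
  have hsec : ∀ x : G, ConjClasses.mk x = ConjClasses.mk g → sec x * g * (sec x)⁻¹ = x := by
    intro x hx
    have h := ex x hx
    simp only [sec, h, dif_pos]
    exact Classical.choose_spec h
  refine ⟨fun x y => if ConjClasses.mk (x * y) = ConjClasses.mk g then
    (((F (y * sec (x * y)) - F (sec (x * y))) / (F g - F 1) : ℝ) : ℂ) else 0,
    1 / |F g - F 1|, by positivity, ?_, ?_, ?_⟩
  · intro x y
    by_cases hxy : ConjClasses.mk (x * y) = ConjClasses.mk g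
    · simp only [hxy, if_true]
      rw [Complex.norm_real, Real.norm_eq_abs, abs_div, one_div, div_eq_inv_mul]
      gcongr
      exact hF _ _
    · simp only [hxy, if_false, norm_zero]
      exact mul_nonneg (by positivity) (hL0 y)
  · intro x y z
    have e1 : ConjClasses.mk (x * (y * z)) = ConjClasses.mk (x * y * z) := by rw [mul_assoc]
    have e2 : ConjClasses.mk (z * x * y) = ConjClasses.mk (x * y * z) := by
      rw [mul_assoc z x y, hcyc]
    simp only [e1, e2]
    by_cases hxy : ConjClasses.mk (x * y * z) = ConjClasses.mk g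
    · simp only [hxy, if_true]
      rw [← Complex.ofReal_add]
      congr 1
      rw [← add_div]
      congr 1
      have s1 := hsec (x * y * z) hxy
      have s2 := hsec (z * x * y) (e2.trans hxy)
      have e3 : x * (y * z) = x * y * z := by group
      rw [e3]
      set s := sec (x * y * z) with hs
      set t := sec (z * x * y) with ht
      have e4 : t * g * t⁻¹ = (z * s) * g * (z * s)⁻¹ := by
        rw [s2]
        calc z * x * y = z * (x * y * z) * z⁻¹ := by group
          _ = z * (s * g * s⁻¹) * z⁻¹ := by rw [s1]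
          _ = _ := by group
      rw [wd t (z * s) y e4]
      have e5 : y * z * s = y * (z * s) := by group
      rw [e5]; ring
    · simp only [hxy, if_false, add_zero]
  · funext y
    unfold chi
    simp only [one_mul]
    by_cases hy : ConjClasses.mk y = ConjClasses.mk g
    · simp only [hy, if_true]
      have s1 := hsec y hy
      have e1 : y * sec y = sec y * g := by
        calc y * sec y = (sec y * g * (sec y)⁻¹) * sec y := by rw [s1]
          _ = _ := by group
      rw [e1, hz g rfl, div_self hg]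
      simp
    · simp only [hy, if_false]

/-- Vanishing criterion in terms of a coordinate function. -/
theorem vanish_of_F {q : ℕ} (g : G) (F : G → ℝ) (L : G → ℝ)
    (hLmul : ∀ x y, L (x * y) ≤ L x + L y)
    (hF : ∀ k s, |F (k * s) - F s| ≤ L k)
    (hz : ∀ z, z * g = g * z → ∀ s, F (s * z) - F s = F z - F 1)
    (hg : F g - F 1 ≠ 0)
    (e : Fin q → Fin q → G → ℂ) (he : IsL1Matrix e) (hid : IsIdempotentMatrix e) :
    hsCoeff e (ConjClasses.mk g) = 0 := by
  obtain ⟨ω, K, hK, hωL, hcyc, hω1⟩ := cocycle_of_F g F L hF hz hg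
  exact vanish_of_cocycle (ConjClasses.mk g) ω K L hK (fun k => (abs_nonneg _).trans (hF k 1))
    hLmul hωL hcyc hω1 e he hid

/-- the averaged coordinate function attached to a subadditive function -/
noncomputable def F0 (L : G → ℝ) (g s : G) : ℝ :=
  ulim (fun N : ℕ => (∑ n ∈ Finset.range N, (L (s * g ^ n) - L (g ^ n))) / (N : ℝ))

theorem vanish_of_undistorted {q : ℕ} (g : G) (hund : Undistorted g)
    (hmean : Amenable (Subgroup.centralizer ({g} : Set G)))
    (e : Fin q → Fin q → G → ℂ) (he : IsL1Matrix e) (hid : IsIdempotentMatrix e) :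
    hsCoeff e (ConjClasses.mk g) = 0 := by
  obtain ⟨L, hL, c, hc, hcL⟩ := hund
  obtain ⟨m, madd, msmul, mpos, mone, minv⟩ := hmean
  have hL1 : 0 ≤ L 1 := by have := hL 1 1; rw [one_mul] at this; linarith
  set A : G → ℝ := fun s => max (L s) (L s⁻¹) with hA
  have hAmul : ∀ x y, A (x * y) ≤ A x + A y := by
    intro x y
    simp only [hA]
    apply max_le
    · exact (hL x y).trans (add_le_add (le_max_left _ _) (le_max_left _ _))
    · rw [mul_inv_rev, add_comm]
      exact (hL _ _).trans (add_le_add (le_max_right _ _) (le_max_right _ _))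
  have hdiff : ∀ s x : G, |L (s * x) - L x| ≤ A s := by
    intro s x
    rw [abs_le]
    have h1 := hL s x
    have h2 := hL s⁻¹ (s * x)
    rw [inv_mul_cancel_left] at h2
    have h3 : L s ≤ A s := le_max_left _ _
    have h4 : L s⁻¹ ≤ A s := le_max_right _ _
    constructor <;> linarith
  have hA0 : ∀ s, 0 ≤ A s := fun s => (abs_nonneg _).trans (hdiff s 1)
  -- averages
  have havg : ∀ (s t : G) (N : ℕ), |(∑ n ∈ Finset.range N, (L (s * (t * g ^ n)) - L (t * g ^ n))) /
      (N : ℝ)| ≤ A s := by
    intro s t N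
    rcases Nat.eq_zero_or_pos N with rfl | hN
    · simpa using hA0 s
    have hN' : (0 : ℝ) < N := by exact_mod_cast hN
    rw [abs_div, abs_of_pos hN', div_le_iff₀ hN']
    refine (Finset.abs_sum_le_sum_abs _ _).trans ?_
    calc _ ≤ ∑ n ∈ Finset.range N, A s := Finset.sum_le_sum fun n _ => hdiff _ _
      _ = _ := by rw [Finset.sum_const, Finset.card_range, nsmul_eq_mul, mul_comm]
  have hspec : ∀ s, Tendsto (fun N : ℕ => (∑ n ∈ Finset.range N, (L (s * g ^ n) - L (g ^ n))) / (N : ℝ))
      (hyperfilter ℕ : Filter ℕ) (𝓝 (F0 L g s)) := by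
    intro s
    refine ulim_spec (B := A s) fun N => ?_
    simpa using havg s 1 N
  have hF0 : ∀ k s, |F0 L g (k * s) - F0 L g s| ≤ A k := by
    intro k s
    have h1 := ((hspec (k * s)).sub (hspec s)).abs
    refine le_of_tendsto h1 (Filter.Eventually.of_forall fun N => ?_)
    have h2 := havg k s N
    refine le_trans (le_of_eq ?_) h2
    rw [← sub_div, ← Finset.sum_sub_distrib]
    congr 2
    apply Finset.sum_congr rfl
    intro n _
    rw [mul_assoc]; ring
  -- the drift
  obtain ⟨ℓ, hℓ0, hℓ⟩ : ∃ ℓ : ℝ, 0 < ℓ ∧ Tendsto (fun n : ℕ => L (g ^ n) / n) atTop (𝓝 ℓ) := by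
    have hs : Subadditive (fun n : ℕ => L (g ^ n)) := by
      intro a b
      simp only [pow_add]
      exact hL _ _
    have hge : ∀ n : ℕ, 0 ≤ L (g ^ n) / n := by
      intro n
      have := hcL n
      have h0 : (0 : ℝ) ≤ c * n := by positivity
      exact div_nonneg (h0.trans this) (by positivity)
    have hb : BddBelow (Set.range fun n : ℕ => L (g ^ n) / n) :=
      ⟨0, by rintro _ ⟨n, rfl⟩; exact hge n⟩
    have ht := hs.tendsto_lim hb
    refine ⟨hs.lim, lt_of_lt_of_le hc ?_, ht⟩
    refine ge_of_tendsto ht ?_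
    filter_upwards [eventually_gt_atTop 0] with n hn
    have hn' : (0 : ℝ) < n := by exact_mod_cast hn
    rw [le_div_iff₀ hn']
    exact hcL n
  have hdrift : ∀ s, F0 L g (s * g) - F0 L g s = ℓ := by
    intro s
    have h1 := (hspec (s * g)).sub (hspec s)
    have h2 : Tendsto (fun N : ℕ => L (g ^ N) / N + (L (s * g ^ N) - L (g ^ N)) / N - L s / N) atTop
        (𝓝 (ℓ + 0 - 0)) := by
      refine (hℓ.add ?_).sub (tendsto_const_div_nat _)
      refine squeeze_zero_norm (a := fun N : ℕ => A s / (N : ℝ)) ?_ (tendsto_const_div_nat _)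
      intro N
      rw [Real.norm_eq_abs, abs_div, abs_of_nonneg (a := (N : ℝ)) (by positivity)]
      gcongr
      exact hdiff _ _
    rw [add_zero, sub_zero] at h2
    refine tendsto_nhds_unique h1 ((h2.mono_left Nat.hyperfilter_le_atTop).congr fun N => ?_)
    have h3 : ∑ n ∈ Finset.range N, (L (s * g * g ^ n) - L (g ^ n)) -
        ∑ n ∈ Finset.range N, (L (s * g ^ n) - L (g ^ n)) = L (s * g ^ N) - L s := by
      rw [← Finset.sum_sub_distrib]
      induction N with
      | zero => simp
      | succ N ih =>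
        rw [Finset.sum_range_succ, ih]
        have : s * g * g ^ N = s * g ^ (N + 1) := by rw [pow_succ']; group
        rw [this]; ring
    rw [← sub_div, h3]
    ring
  -- averaging over the centralizer
  set F : G → ℝ := fun s => m (fun z => F0 L g (s * z) - F0 L g z) with hFdef
  have mneg : ∀ f : (Subgroup.centralizer ({g} : Set G)) → ℝ, (∃ B, ∀ x, |f x| ≤ B) →
      m (fun x => - f x) = - m f := by
    intro f hf
    have := msmul (-1) f hf
    simpa using this
  have mconst : ∀ r : ℝ, m (fun _ => r) = r := by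
    intro r
    have := msmul r (fun _ => 1) ⟨1, fun _ => by simp⟩
    simpa [mone] using this
  have mbound : ∀ (f : (Subgroup.centralizer ({g} : Set G)) → ℝ) (B : ℝ), (∀ x, |f x| ≤ B) →
      |m f| ≤ B := by
    intro f B hf
    have hfb : ∃ B, ∀ x, |f x| ≤ B := ⟨B, hf⟩
    have hcb : ∃ B', ∀ _ : (Subgroup.centralizer ({g} : Set G)), |B| ≤ B' := ⟨|B|, fun _ => le_rfl⟩
    have hnb : ∃ B, ∀ x, |(fun x => - f x) x| ≤ B := ⟨B, fun x => by simpa using hf x⟩
    rw [abs_le]
    constructor
    · have h1 : 0 ≤ m (fun x => B + f x) := by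
        apply mpos _ ⟨|B| + B, fun x => (abs_add_le _ _).trans (by gcongr; exact hf x)⟩
        intro x; have := (abs_le.mp (hf x)).1; linarith
      rw [madd _ _ hcb hfb, mconst] at h1
      linarith
    · have h1 : 0 ≤ m (fun x => B + - f x) := by
        apply mpos _ ⟨|B| + B, fun x => (abs_add_le _ _).trans (by
          rw [abs_neg]; gcongr; exact hf x)⟩
        intro x; have := (abs_le.mp (hf x)).2; linarith
      rw [madd _ _ hcb hnb, mconst, mneg _ hfb] at h1
      linarith
  have bF : ∀ s, ∃ B, ∀ z : (Subgroup.centralizer ({g} : Set G)), |F0 L g (s * z) - F0 L g z| ≤ B :=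
    fun s => ⟨A s, fun z => hF0 s z⟩
  have msub : ∀ f₁ f₂ : (Subgroup.centralizer ({g} : Set G)) → ℝ, (∃ B, ∀ x, |f₁ x| ≤ B) →
      (∃ B, ∀ x, |f₂ x| ≤ B) → m (fun x => f₁ x - f₂ x) = m f₁ - m f₂ := by
    intro f₁ f₂ h1 h2
    have h3 : ∃ B, ∀ x, |(fun x => - f₂ x) x| ≤ B := by
      obtain ⟨B, hB⟩ := h2; exact ⟨B, fun x => by simpa using hB x⟩
    have := madd f₁ (fun x => - f₂ x) h1 h3
    rw [mneg _ h2] at this
    simpa [sub_eq_add_neg] using this
  have hFdiff : ∀ k s, F (k * s) - F s = m (fun z => F0 L g (k * s * z) - F0 L g (s * z)) := by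
    intro k s
    rw [hFdef]
    simp only
    rw [← msub _ _ (bF _) (bF _)]
    congr 1; funext z; ring
  have hF1 : F 1 = 0 := by
    rw [hFdef]
    simp only [one_mul, sub_self]
    exact mconst 0
  refine vanish_of_F g F A hAmul ?_ ?_ ?_ e he hid
  · intro k s
    rw [hFdiff]
    apply mbound
    intro z
    rw [mul_assoc]
    exact hF0 k (s * z)
  · intro z' hz' s
    let zz : Subgroup.centralizer ({g} : Set G) := ⟨z', by
      rw [Subgroup.mem_centralizer_iff]
      intro h hh
      rw [Set.mem_singleton_iff] at hh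
      rw [hh]; exact hz'.symm⟩
    rw [hF1, sub_zero]
    have h1 : F s = m (fun z => F0 L g (s * (zz * z : Subgroup.centralizer ({g} : Set G))) -
        F0 L g (zz * z : Subgroup.centralizer ({g} : Set G))) := by
      rw [hFdef]
      exact (minv zz (fun z => F0 L g (s * z) - F0 L g z) (bF s)).symm
    rw [h1, hFdef]
    simp only
    rw [← msub]
    · congr 1; funext z
      have e1 : s * z' * z = s * ((zz * z : Subgroup.centralizer ({g} : Set G)) : G) := by
        rw [Subgroup.coe_mul, mul_assoc]
      have e2 : ((zz * z : Subgroup.centralizer ({g} : Set G)) : G) = z' * z := by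
        rw [Subgroup.coe_mul]
      rw [e1, e2]; ring
    · exact bF _
    · obtain ⟨B, hB⟩ := bF s
      exact ⟨B, fun z => hB (zz * z)⟩
  · rw [hF1, sub_zero, hFdef]
    simp only
    have : (fun z : (Subgroup.centralizer ({g} : Set G)) => F0 L g (g * z) - F0 L g z) =
        fun _ => ℓ := by
      funext z
      have hz : g * (z : G) = z * g := (Subgroup.mem_centralizer_iff.mp z.2 g rfl)
      rw [hz, hdrift]
    rw [this, mconst]
    exact hℓ0.ne'

end Vale.Agent.L1Bass
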