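import Mathlib

/-!
Definitions for the `ℓ¹`-Bass conjecture: matrices over the Banach group algebra `ℓ¹(G)`,
their idempotents, the coefficients of the Hattori-Stallings trace, and the elements of a group
to which the vanishing theorem applies.
-/

namespace Vale.Agent.L1Bass

universe u v

/-- The convolution product of two complex functions on a group `G`
(the product of `ℓ¹(G)`): `(a * b)(g) = ∑_h a(h) b(h⁻¹ g)`. -/
noncomputable def conv {G : Type u} [Group G] (a b : G → ℂ) (g : G) : ℂ :=
  ∑' h : G, a h * b (h⁻¹ * g)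

/-- `e` is a `q × q` matrix with entries in `ℓ¹(G)`. -/
def IsL1Matrix {G : Type u} {q : ℕ} (e : Fin q → Fin q → G → ℂ) : Prop :=
  ∀ i j, Summable fun g => ‖e i j g‖

/-- `e * e = e` for the matrix product over `ℓ¹(G)` (with convolution of entries). -/
def IsIdempotentMatrix {G : Type u} [Group G] {q : ℕ} (e : Fin q → Fin q → G → ℂ) : Prop :=
  ∀ i j g, ∑ k, conv (e i k) (e k j) g = e i j g

/-- The coefficient `τ_C(e) = ∑_{g ∈ C} ∑_i e_{ii}(g)` of the Hattori-Stallings trace. -/
noncomputable def hsCoeff {G : Type u} [Group G] {q : ℕ} (e : Fin q → Fin q → G → ℂ)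
    (C : ConjClasses G) : ℂ :=
  ∑' g : {g : G // ConjClasses.mk g = C}, ∑ i, e i i g.1

/-- The inequality of Bruhat and Tits: any two points `x, y` have a midpoint `m` for which the
semi-parallelogram law holds at every point `z`.  Every CAT(0) space has this property. -/
def SemiParallelogram (X : Type v) [PseudoMetricSpace X] : Prop :=
  ∀ x y : X, ∃ m : X, ∀ z : X,
    dist z m ^ 2 ≤ (dist z x ^ 2 + dist z y ^ 2) / 2 - dist x y ^ 2 / 4

/-- `g` acts with linear displacement (that is, with positive translation length) in some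
isometric action of the whole group `G` on some space with the semi-parallelogram law. -/
def ActsHyperbolically {G : Type u} [Group G] (g : G) : Prop :=
  ∃ (X : Type v) (_ : PseudoMetricSpace X) (_ : MulAction G X),
    (∀ (h : G) (x y : X), dist (h • x) (h • y) = dist x y) ∧ SemiParallelogram X ∧
    ∃ (p : X) (c : ℝ), 0 < c ∧ ∀ n : ℕ, c * n ≤ dist p (g ^ n • p)

/-- Amenability of a discrete group: there is a left invariant mean on bounded real functions. -/
def Amenable (H : Type u) [Group H] : Prop :=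
  ∃ m : (H → ℝ) → ℝ,
    (∀ f₁ f₂ : H → ℝ, (∃ B, ∀ x, |f₁ x| ≤ B) → (∃ B, ∀ x, |f₂ x| ≤ B) →
      m (fun x => f₁ x + f₂ x) = m f₁ + m f₂) ∧
    (∀ (c : ℝ) (f : H → ℝ), (∃ B, ∀ x, |f x| ≤ B) → m (fun x => c * f x) = c * m f) ∧
    (∀ f : H → ℝ, (∃ B, ∀ x, |f x| ≤ B) → (∀ x, 0 ≤ f x) → 0 ≤ m f) ∧
    m (fun _ => 1) = 1 ∧
    (∀ (h : H) (f : H → ℝ), (∃ B, ∀ x, |f x| ≤ B) → m (fun x => f (h * x)) = m f)

/-- The powers of `g` grow linearly for some subadditive function on `G` (for instance a word
length, or the displacement function of any isometric action on a metric space). -/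
def Undistorted {G : Type u} [Group G] (g : G) : Prop :=
  ∃ L : G → ℝ, (∀ x y, L (x * y) ≤ L x + L y) ∧ ∃ c : ℝ, 0 < c ∧ ∀ n : ℕ, c * n ≤ L (g ^ n)

end Vale.Agent.L1Bass
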