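import Mathlib

set_option linter.unusedSectionVars false

namespace Vale.Agent.L1Bass

open MonoidAlgebra

variable {G : Type*} [Group G]

/-- weighted `ℓ¹` norm on the group algebra -/
noncomputable def W (w : G → ℝ) (a : MonoidAlgebra ℂ G) : ℝ := a.coeff.sum fun g c => ‖c‖ * w g

lemma W_eq (w : G → ℝ) (a : MonoidAlgebra ℂ G) (s : Finset G) (hs : a.coeff.support ⊆ s) :
    W w a = ∑ g ∈ s, ‖a.coeff g‖ * w g := by
  unfold W
  rw [Finsupp.sum_of_support_subset _ hs]
  simp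

lemma W_nonneg {w : G → ℝ} (hw : ∀ g, 0 ≤ w g) (a : MonoidAlgebra ℂ G) : 0 ≤ W w a := by
  unfold W Finsupp.sum
  exact Finset.sum_nonneg fun g _ => mul_nonneg (norm_nonneg _) (hw g)

lemma W_zero (w : G → ℝ) : W w (0 : MonoidAlgebra ℂ G) = 0 := by simp [W]

lemma W_single (w : G → ℝ) (g : G) (c : ℂ) : W w (single g c) = ‖c‖ * w g := by
  simp [W]

lemma W_neg (w : G → ℝ) (a : MonoidAlgebra ℂ G) : W w (-a) = W w a := by
  rw [W_eq w (-a) a.coeff.support (by simp), W_eq w a a.coeff.support (by simp)]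
  simp

lemma W_add_le {w : G → ℝ} (hw : ∀ g, 0 ≤ w g) (a b : MonoidAlgebra ℂ G) :
    W w (a + b) ≤ W w a + W w b := by
  classical
  have h1 : (a + b).coeff.support ⊆ a.coeff.support ∪ b.coeff.support := Finsupp.support_add
  rw [W_eq w (a + b) _ h1, W_eq w a _ Finset.subset_union_left,
    W_eq w b _ Finset.subset_union_right, ← Finset.sum_add_distrib]
  apply Finset.sum_le_sum
  intro g _
  rw [← add_mul]
  apply mul_le_mul_of_nonneg_right _ (hw g)
  simpa using norm_add_le (a.coeff g) (b.coeff g)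

lemma W_sum_le {ι : Type*} {w : G → ℝ} (hw : ∀ g, 0 ≤ w g) (s : Finset ι)
    (f : ι → MonoidAlgebra ℂ G) : W w (∑ i ∈ s, f i) ≤ ∑ i ∈ s, W w (f i) := by
  classical
  induction s using Finset.induction_on with
  | empty => simp [W_zero]
  | insert i s hi ih =>
    rw [Finset.sum_insert hi, Finset.sum_insert hi]
    exact (W_add_le hw _ _).trans (by gcongr)

lemma W_mul_le_gen {w : G → ℝ} (hw : ∀ g, 0 ≤ w g) (a b : MonoidAlgebra ℂ G) :
    W w (a * b) ≤ ∑ g ∈ a.coeff.support, ∑ h ∈ b.coeff.support,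
      ‖a.coeff g‖ * ‖b.coeff h‖ * w (g * h) := by
  rw [mul_def]
  unfold Finsupp.sum
  refine (W_sum_le hw _ _).trans (Finset.sum_le_sum fun g _ => ?_)
  refine (W_sum_le hw _ _).trans (Finset.sum_le_sum fun h _ => ?_)
  rw [W_single, norm_mul]

lemma W_one_mul (a b : MonoidAlgebra ℂ G) :
    W (fun _ => 1) (a * b) ≤ W (fun _ => 1) a * W (fun _ => 1) b := by
  refine (W_mul_le_gen (fun _ => zero_le_one) a b).trans (le_of_eq ?_)
  unfold W Finsupp.sum
  simp only [mul_one]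
  rw [Finset.sum_mul_sum]

lemma W_L_mul {L : G → ℝ} (hL : ∀ g, 0 ≤ L g) (hLmul : ∀ g h, L (g * h) ≤ L g + L h)
    (a b : MonoidAlgebra ℂ G) :
    W L (a * b) ≤ W L a * W (fun _ => 1) b + W (fun _ => 1) a * W L b := by
  refine (W_mul_le_gen hL a b).trans ?_
  unfold W Finsupp.sum
  simp only [mul_one]
  rw [Finset.sum_mul_sum, Finset.sum_mul_sum, ← Finset.sum_add_distrib]
  apply Finset.sum_le_sum
  intro g _
  rw [← Finset.sum_add_distrib]
  apply Finset.sum_le_sum
  intro h _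
  calc ‖a.coeff g‖ * ‖b.coeff h‖ * L (g * h)
      ≤ ‖a.coeff g‖ * ‖b.coeff h‖ * (L g + L h) := by gcongr; exact hLmul g h
    _ = _ := by ring

/-- weighted norm of a matrix over the group algebra -/
noncomputable def WM {q : ℕ} (w : G → ℝ) (f : Matrix (Fin q) (Fin q) (MonoidAlgebra ℂ G)) : ℝ :=
  ∑ i, ∑ j, W w (f i j)

lemma WM_nonneg {q : ℕ} {w : G → ℝ} (hw : ∀ g, 0 ≤ w g)
    (f : Matrix (Fin q) (Fin q) (MonoidAlgebra ℂ G)) : 0 ≤ WM w f :=
  Finset.sum_nonneg fun _ _ => Finset.sum_nonneg fun _ _ => W_nonneg hw _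

lemma WM_zero {q : ℕ} (w : G → ℝ) :
    WM w (0 : Matrix (Fin q) (Fin q) (MonoidAlgebra ℂ G)) = 0 := by
  simp [WM, W_zero]

lemma WM_neg {q : ℕ} (w : G → ℝ) (f : Matrix (Fin q) (Fin q) (MonoidAlgebra ℂ G)) :
    WM w (-f) = WM w f := by
  simp [WM, W_neg]

lemma WM_add_le {q : ℕ} {w : G → ℝ} (hw : ∀ g, 0 ≤ w g)
    (f g : Matrix (Fin q) (Fin q) (MonoidAlgebra ℂ G)) : WM w (f + g) ≤ WM w f + WM w g := by
  unfold WM
  rw [← Finset.sum_add_distrib]
  apply Finset.sum_le_sum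
  intro i _
  rw [← Finset.sum_add_distrib]
  apply Finset.sum_le_sum
  intro j _
  exact W_add_le hw _ _

lemma sum3_le {q : ℕ} (u v : Fin q → Fin q → ℝ) (hu : ∀ i j, 0 ≤ u i j) (hv : ∀ i j, 0 ≤ v i j) :
    ∑ i, ∑ j, ∑ k, u i k * v k j ≤ (∑ i, ∑ j, u i j) * (∑ i, ∑ j, v i j) := by
  calc ∑ i, ∑ j, ∑ k, u i k * v k j = ∑ i, ∑ k, u i k * ∑ j, v k j := by
        apply Finset.sum_congr rfl; intro i _
        rw [Finset.sum_comm]
        apply Finset.sum_congr rfl; intro k _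
        rw [Finset.mul_sum]
    _ ≤ ∑ i, ∑ k, u i k * ∑ k', ∑ j, v k' j := by
        apply Finset.sum_le_sum; intro i _
        apply Finset.sum_le_sum; intro k _
        apply mul_le_mul_of_nonneg_left _ (hu i k)
        exact Finset.single_le_sum (f := fun k' => ∑ j, v k' j)
          (fun k' _ => Finset.sum_nonneg fun j _ => hv k' j) (Finset.mem_univ k)
    _ = _ := by
        simp only [← Finset.sum_mul]

lemma WM_one_mul {q : ℕ} (f g : Matrix (Fin q) (Fin q) (MonoidAlgebra ℂ G)) :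
    WM (fun _ => 1) (f * g) ≤ WM (fun _ => 1) f * WM (fun _ => 1) g := by
  have h1 : ∀ g : G, (0:ℝ) ≤ (fun _ => 1 : G → ℝ) g := fun _ => zero_le_one
  refine le_trans ?_ (sum3_le (fun i j => W (fun _ => 1) (f i j)) (fun i j => W (fun _ => 1) (g i j))
    (fun i j => W_nonneg h1 _) (fun i j => W_nonneg h1 _))
  unfold WM
  apply Finset.sum_le_sum; intro i _
  apply Finset.sum_le_sum; intro j _
  rw [Matrix.mul_apply]
  refine (W_sum_le h1 _ _).trans ?_
  apply Finset.sum_le_sum; intro k _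
  exact W_one_mul _ _

lemma WM_L_mul {q : ℕ} {L : G → ℝ} (hL : ∀ g, 0 ≤ L g) (hLmul : ∀ g h, L (g * h) ≤ L g + L h)
    (f g : Matrix (Fin q) (Fin q) (MonoidAlgebra ℂ G)) :
    WM L (f * g) ≤ WM L f * WM (fun _ => 1) g + WM (fun _ => 1) f * WM L g := by
  have h1 : ∀ g : G, (0:ℝ) ≤ (fun _ => 1 : G → ℝ) g := fun _ => zero_le_one
  have e1 := sum3_le (fun i j => W L (f i j)) (fun i j => W (fun _ => 1) (g i j))
    (fun i j => W_nonneg hL _) (fun i j => W_nonneg h1 _)
  have e2 := sum3_le (fun i j => W (fun _ => 1) (f i j)) (fun i j => W L (g i j))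
    (fun i j => W_nonneg h1 _) (fun i j => W_nonneg hL _)
  refine le_trans ?_ (add_le_add e1 e2)
  unfold WM
  rw [← Finset.sum_add_distrib]
  apply Finset.sum_le_sum; intro i _
  rw [← Finset.sum_add_distrib]
  apply Finset.sum_le_sum; intro j _
  rw [Matrix.mul_apply, ← Finset.sum_add_distrib]
  refine (W_sum_le hL _ _).trans ?_
  apply Finset.sum_le_sum; intro k _
  exact W_L_mul hL hLmul _ _

/-- the bilinear form attached to a function `ω` on `G × G` -/
noncomputable def Om (ω : G → G → ℂ) (a b : MonoidAlgebra ℂ G) : ℂ :=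
  a.coeff.sum fun h α => b.coeff.sum fun k β => α * β * ω h k

lemma Om_add_left (ω : G → G → ℂ) (a a' b : MonoidAlgebra ℂ G) :
    Om ω (a + a') b = Om ω a b + Om ω a' b := by
  classical
  unfold Om
  rw [coeff_add, Finsupp.sum_add_index']
  · intro h; simp
  · intro h α α'
    simp only [add_mul]
    exact Finsupp.sum_add ..

lemma Om_add_right (ω : G → G → ℂ) (a b b' : MonoidAlgebra ℂ G) :
    Om ω a (b + b') = Om ω a b + Om ω a b' := by
  classical
  unfold Om
  rw [← Finsupp.sum_add]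
  apply Finsupp.sum_congr
  intro h _
  rw [coeff_add, Finsupp.sum_add_index']
  · intro k; simp
  · intro k β β'; ring

lemma Om_zero_left (ω : G → G → ℂ) (b : MonoidAlgebra ℂ G) : Om ω 0 b = 0 := by simp [Om]

lemma Om_zero_right (ω : G → G → ℂ) (a : MonoidAlgebra ℂ G) : Om ω a 0 = 0 := by simp [Om]

lemma Om_single (ω : G → G → ℂ) (h k : G) (α β : ℂ) :
    Om ω (single h α) (single k β) = α * β * ω h k := by
  simp [Om]

lemma Om_cyc {ω : G → G → ℂ} (hω : ∀ x y z, ω x (y * z) = ω (x * y) z + ω (z * x) y)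
    (a b c : MonoidAlgebra ℂ G) : Om ω a (b * c) = Om ω (a * b) c + Om ω (c * a) b := by
  induction a using MonoidAlgebra.induction_linear with
  | zero => simp [Om_zero_left]
  | add a a' ha ha' => rw [Om_add_left, add_mul, mul_add, Om_add_left, Om_add_left, ha, ha']; ring
  | single x α =>
  induction b using MonoidAlgebra.induction_linear with
  | zero => simp [Om_zero_left, Om_zero_right]
  | add b b' hb hb' => rw [add_mul, mul_add, Om_add_left, Om_add_right, Om_add_right, hb, hb']; ring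
  | single y β =>
  induction c using MonoidAlgebra.induction_linear with
  | zero => simp [Om_zero_left, Om_zero_right]
  | add c c' hc hc' => rw [add_mul, mul_add, Om_add_left, Om_add_right, Om_add_right, hc, hc']; ring
  | single z γ =>
    simp only [single_mul_single, Om_single, hω]
    ring

lemma Om_sum_left {ι : Type*} (ω : G → G → ℂ) (s : Finset ι) (a : ι → MonoidAlgebra ℂ G)
    (b : MonoidAlgebra ℂ G) : Om ω (∑ i ∈ s, a i) b = ∑ i ∈ s, Om ω (a i) b := by
  classical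
  induction s using Finset.induction_on with
  | empty => simp [Om_zero_left]
  | insert i s hi ih => rw [Finset.sum_insert hi, Finset.sum_insert hi, Om_add_left, ih]

lemma Om_sum_right {ι : Type*} (ω : G → G → ℂ) (s : Finset ι) (b : ι → MonoidAlgebra ℂ G)
    (a : MonoidAlgebra ℂ G) : Om ω a (∑ i ∈ s, b i) = ∑ i ∈ s, Om ω a (b i) := by
  classical
  induction s using Finset.induction_on with
  | empty => simp [Om_zero_right]
  | insert i s hi ih => rw [Finset.sum_insert hi, Finset.sum_insert hi, Om_add_right, ih]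

/-- the trace form on matrices -/
noncomputable def OmM {q : ℕ} (ω : G → G → ℂ) (a b : Matrix (Fin q) (Fin q) (MonoidAlgebra ℂ G)) :
    ℂ := ∑ i, ∑ j, Om ω (a i j) (b j i)

lemma OmM_add_left {q : ℕ} (ω : G → G → ℂ) (a a' b : Matrix (Fin q) (Fin q) (MonoidAlgebra ℂ G)) :
    OmM ω (a + a') b = OmM ω a b + OmM ω a' b := by
  simp [OmM, Om_add_left, Finset.sum_add_distrib]

lemma OmM_add_right {q : ℕ} (ω : G → G → ℂ) (a b b' : Matrix (Fin q) (Fin q) (MonoidAlgebra ℂ G)) :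
    OmM ω a (b + b') = OmM ω a b + OmM ω a b' := by
  simp [OmM, Om_add_right, Finset.sum_add_distrib]

lemma sum_rot {q : ℕ} (F : Fin q → Fin q → Fin q → ℂ) :
    ∑ i, ∑ j, ∑ k, F i j k = ∑ k, ∑ j, ∑ i, F i j k := by
  calc ∑ i, ∑ j, ∑ k, F i j k = ∑ j, ∑ i, ∑ k, F i j k := Finset.sum_comm
    _ = ∑ j, ∑ k, ∑ i, F i j k := by
        apply Finset.sum_congr rfl; intro j _
        rw [Finset.sum_comm]
    _ = ∑ k, ∑ j, ∑ i, F i j k := Finset.sum_comm

lemma sum_rot2 {q : ℕ} (F : Fin q → Fin q → Fin q → ℂ) :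
    ∑ i, ∑ j, ∑ k, F i j k = ∑ i, ∑ k, ∑ j, F i j k := by
  apply Finset.sum_congr rfl; intro i _
  rw [Finset.sum_comm]

lemma OmM_cyc {q : ℕ} {ω : G → G → ℂ} (hω : ∀ x y z, ω x (y * z) = ω (x * y) z + ω (z * x) y)
    (a b c : Matrix (Fin q) (Fin q) (MonoidAlgebra ℂ G)) :
    OmM ω a (b * c) = OmM ω (a * b) c + OmM ω (c * a) b := by
  have e1 : OmM ω a (b * c) = ∑ i, ∑ j, ∑ k, (Om ω (a i j * b j k) (c k i) +
      Om ω (c k i * a i j) (b j k)) := by
    unfold OmM
    apply Finset.sum_congr rfl; intro i _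
    apply Finset.sum_congr rfl; intro j _
    rw [Matrix.mul_apply, Om_sum_right]
    apply Finset.sum_congr rfl; intro k _
    exact Om_cyc hω _ _ _
  have e2 : OmM ω (a * b) c = ∑ i, ∑ k, ∑ j, Om ω (a i j * b j k) (c k i) := by
    unfold OmM
    apply Finset.sum_congr rfl; intro i _
    apply Finset.sum_congr rfl; intro k _
    rw [Matrix.mul_apply, Om_sum_left]
  have e3 : OmM ω (c * a) b = ∑ k, ∑ j, ∑ i, Om ω (c k i * a i j) (b j k) := by
    unfold OmM
    apply Finset.sum_congr rfl; intro k _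
    apply Finset.sum_congr rfl; intro j _
    rw [Matrix.mul_apply, Om_sum_left]
  rw [e1, e2, e3]
  simp only [Finset.sum_add_distrib]
  rw [sum_rot2 (fun i j k => Om ω (a i j * b j k) (c k i)),
    sum_rot (fun i j k => Om ω (c k i * a i j) (b j k))]

lemma norm_Om_le {ω : G → G → ℂ} {K : ℝ} {L : G → ℝ} (hωL : ∀ h k, ‖ω h k‖ ≤ K * L k)
    (a b : MonoidAlgebra ℂ G) : ‖Om ω a b‖ ≤ K * (W (fun _ => 1) a * W L b) := by
  unfold Om W Finsupp.sum
  refine (norm_sum_le _ _).trans ?_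
  simp only [mul_one]
  rw [Finset.sum_mul_sum, Finset.mul_sum]
  apply Finset.sum_le_sum; intro h _
  refine (norm_sum_le _ _).trans ?_
  rw [Finset.mul_sum]
  apply Finset.sum_le_sum; intro k _
  rw [norm_mul, norm_mul]
  calc ‖a.coeff h‖ * ‖b.coeff k‖ * ‖ω h k‖ ≤ ‖a.coeff h‖ * ‖b.coeff k‖ * (K * L k) := by
        gcongr; exact hωL h k
    _ = _ := by ring

lemma norm_OmM_le {q : ℕ} {ω : G → G → ℂ} {K : ℝ} {L : G → ℝ} (hK : 0 ≤ K) (hL : ∀ g, 0 ≤ L g)
    (hωL : ∀ h k, ‖ω h k‖ ≤ K * L k) (a b : Matrix (Fin q) (Fin q) (MonoidAlgebra ℂ G)) :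
    ‖OmM ω a b‖ ≤ K * (WM (fun _ => 1) a * WM L b) := by
  have h1 : ∀ g : G, (0:ℝ) ≤ (fun _ => 1 : G → ℝ) g := fun _ => zero_le_one
  have e : ∑ i, ∑ j, W (fun _ => 1) (a i j) * W L (b j i) ≤ WM (fun _ => 1) a * WM L b := by
    unfold WM
    rw [Finset.sum_mul]
    apply Finset.sum_le_sum; intro i _
    rw [Finset.sum_mul]
    apply Finset.sum_le_sum; intro j _
    apply mul_le_mul_of_nonneg_left _ (W_nonneg h1 _)
    calc W L (b j i) ≤ ∑ i, W L (b j i) :=
          Finset.single_le_sum (f := fun i => W L (b j i)) (fun i _ => W_nonneg hL _)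
            (Finset.mem_univ i)
      _ ≤ ∑ j, ∑ i, W L (b j i) :=
          Finset.single_le_sum (f := fun j => ∑ i, W L (b j i))
            (fun j _ => Finset.sum_nonneg fun i _ => W_nonneg hL _) (Finset.mem_univ j)
  calc ‖OmM ω a b‖ ≤ ∑ i, ∑ j, ‖Om ω (a i j) (b j i)‖ :=
        (norm_sum_le _ _).trans (Finset.sum_le_sum fun i _ => norm_sum_le _ _)
    _ ≤ ∑ i, ∑ j, K * (W (fun _ => 1) (a i j) * W L (b j i)) := by
        gcongr; exact norm_Om_le hωL _ _
    _ = K * ∑ i, ∑ j, W (fun _ => 1) (a i j) * W L (b j i) := by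
        simp only [Finset.mul_sum]
    _ ≤ _ := by gcongr

/-- the trace functional of a conjugacy class on matrices over the group algebra -/
noncomputable def trC {q : ℕ} (χ : G → ℂ) (f : Matrix (Fin q) (Fin q) (MonoidAlgebra ℂ G)) : ℂ :=
  ∑ i, (f i i).coeff.sum fun g c => c * χ g

lemma OmM_one {q : ℕ} {ω : G → G → ℂ} (f : Matrix (Fin q) (Fin q) (MonoidAlgebra ℂ G)) :
    OmM ω 1 f = trC (ω 1) f := by
  classical
  unfold OmM trC
  apply Finset.sum_congr rfl; intro i _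
  rw [Finset.sum_eq_single i]
  · simp [Om, one_def]
  · intro j _ hj
    rw [Matrix.one_apply_ne hj.symm, Om_zero_left]
  · simp

lemma norm_trC_le {q : ℕ} {χ : G → ℂ} (hχ : ∀ g, ‖χ g‖ ≤ 1)
    (f : Matrix (Fin q) (Fin q) (MonoidAlgebra ℂ G)) : ‖trC χ f‖ ≤ WM (fun _ => 1) f := by
  have h1 : ∀ g : G, (0:ℝ) ≤ (fun _ => 1 : G → ℝ) g := fun _ => zero_le_one
  unfold trC WM
  refine (norm_sum_le _ _).trans (Finset.sum_le_sum fun i _ => ?_)
  refine le_trans ?_ (Finset.single_le_sum (f := fun j => W (fun _ => 1) (f i j))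
            (fun i _ => W_nonneg h1 _) (Finset.mem_univ i))
  unfold W Finsupp.sum
  refine (norm_sum_le _ _).trans (Finset.sum_le_sum fun g _ => ?_)
  rw [norm_mul]
  exact mul_le_mul_of_nonneg_left (hχ g) (norm_nonneg _)

end Vale.Agent.L1Bass
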