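import Vale.Agent.L1Bass.Defs
import Vale.Agent.L1Bass.GroupAlg

set_option linter.unusedSectionVars false

namespace Vale.Agent.L1Bass

open MonoidAlgebra

variable {G : Type*} [Group G]

noncomputable def l1 (a : G → ℂ) : ℝ := ∑' g, ‖a g‖

lemma l1_nonneg (a : G → ℂ) : 0 ≤ l1 a := tsum_nonneg fun _ => norm_nonneg _

lemma summable_prod {a b : G → ℂ} (ha : Summable fun g => ‖a g‖) (hb : Summable fun g => ‖b g‖) :
    Summable fun p : G × G => ‖a p.1‖ * ‖b (p.1⁻¹ * p.2)‖ := by
  have h := ha.mul_of_nonneg hb (fun _ => norm_nonneg _) (fun _ => norm_nonneg _)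
  let E : G × G ≃ G × G :=
    { toFun := fun p => (p.1, p.1⁻¹ * p.2)
      invFun := fun p => (p.1, p.1 * p.2)
      left_inv := fun p => by simp
      right_inv := fun p => by simp }
  exact (E.summable_iff (f := fun p : G × G => ‖a p.1‖ * ‖b p.2‖)).mpr h

lemma summable_conv {a b : G → ℂ} (ha : Summable fun g => ‖a g‖) (hb : Summable fun g => ‖b g‖)
    (g : G) : Summable fun h : G => ‖a h‖ * ‖b (h⁻¹ * g)‖ :=
  ((summable_prod ha hb).prod_symm).prod_factor g

lemma summable_conv' {a b : G → ℂ} (ha : Summable fun g => ‖a g‖) (hb : Summable fun g => ‖b g‖)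
    (g : G) : Summable fun h : G => a h * b (h⁻¹ * g) :=
  Summable.of_norm (by simpa [norm_mul] using summable_conv ha hb g)

lemma norm_conv_le {a b : G → ℂ} (ha : Summable fun g => ‖a g‖) (hb : Summable fun g => ‖b g‖)
    (g : G) : ‖conv a b g‖ ≤ ∑' h : G, ‖a h‖ * ‖b (h⁻¹ * g)‖ := by
  unfold conv
  refine (norm_tsum_le_tsum_norm (by simpa [norm_mul] using summable_conv ha hb g)).trans ?_
  simp

lemma summable_norm_conv {a b : G → ℂ} (ha : Summable fun g => ‖a g‖)
    (hb : Summable fun g => ‖b g‖) : Summable fun g => ‖conv a b g‖ := by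
  refine Summable.of_nonneg_of_le (fun _ => norm_nonneg _) (norm_conv_le ha hb) ?_
  exact ((summable_prod ha hb).prod_symm).prod

lemma l1_conv_le {a b : G → ℂ} (ha : Summable fun g => ‖a g‖) (hb : Summable fun g => ‖b g‖) :
    l1 (conv a b) ≤ l1 a * l1 b := by
  unfold l1
  calc ∑' g, ‖conv a b g‖ ≤ ∑' g, ∑' h : G, ‖a h‖ * ‖b (h⁻¹ * g)‖ :=
        (summable_norm_conv ha hb).tsum_le_tsum (norm_conv_le ha hb)
          ((summable_prod ha hb).prod_symm).prod
    _ = ∑' h, ∑' g, ‖a h‖ * ‖b (h⁻¹ * g)‖ := by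
        have := (summable_prod ha hb)
        exact (Summable.tsum_comm (f := fun h g : G => ‖a h‖ * ‖b (h⁻¹ * g)‖) this)
    _ = ∑' h, ‖a h‖ * ∑' g, ‖b g‖ := by
        congr 1; ext h
        rw [tsum_mul_left]
        congr 1
        exact (Equiv.mulLeft h⁻¹).tsum_eq (fun g => ‖b g‖)
    _ = _ := by rw [tsum_mul_right]

lemma conv_add_left {a a' b : G → ℂ} (ha : Summable fun g => ‖a g‖)
    (ha' : Summable fun g => ‖a' g‖) (hb : Summable fun g => ‖b g‖) (g : G) :
    conv (fun g => a g + a' g) b g = conv a b g + conv a' b g := by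
  unfold conv
  rw [← (summable_conv' ha hb g).tsum_add (summable_conv' ha' hb g)]
  simp [add_mul]

lemma conv_add_right {a b b' : G → ℂ} (ha : Summable fun g => ‖a g‖)
    (hb : Summable fun g => ‖b g‖) (hb' : Summable fun g => ‖b' g‖) (g : G) :
    conv a (fun g => b g + b' g) g = conv a b g + conv a b' g := by
  unfold conv
  rw [← (summable_conv' ha hb g).tsum_add (summable_conv' ha hb' g)]
  simp [mul_add]

lemma coeff_mul_eq_conv (x y : MonoidAlgebra ℂ G) (g : G) :
    (x * y).coeff g = conv (fun h => x.coeff h) (fun h => y.coeff h) g := by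
  rw [coeff_mul_apply_left]
  unfold conv Finsupp.sum
  rw [tsum_eq_sum]
  intro h hh
  simp [Finsupp.notMem_support_iff.mp hh]

lemma summable_coeff (x : MonoidAlgebra ℂ G) : Summable fun g => ‖x.coeff g‖ :=
  summable_of_ne_finset_zero (s := x.coeff.support) (fun g hg => by
    simp [Finsupp.notMem_support_iff.mp hg])

lemma W_one_eq_l1 (x : MonoidAlgebra ℂ G) : W (fun _ => 1) x = l1 (fun g => x.coeff g) := by
  unfold W l1 Finsupp.sum
  rw [tsum_eq_sum (s := x.coeff.support)]
  · simp
  · intro g hg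
    simp [Finsupp.notMem_support_iff.mp hg]

/-- indicator function of a conjugacy class -/
noncomputable def chi (C : ConjClasses G) (g : G) : ℂ := by
  classical exact if ConjClasses.mk g = C then 1 else 0

lemma norm_chi_le (C : ConjClasses G) (g : G) : ‖chi C g‖ ≤ 1 := by
  unfold chi; split_ifs <;> simp

lemma hsCoeff_eq {q : ℕ} (e : Fin q → Fin q → G → ℂ) (he : IsL1Matrix e) (C : ConjClasses G) :
    hsCoeff e C = ∑ i, ∑' g, e i i g * chi C g := by
  classical
  unfold hsCoeff
  have h1 : ∀ i, Summable fun g => e i i g * chi C g := fun i => by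
    refine Summable.of_norm_bounded (g := fun g => ‖e i i g‖) (he i i) fun g => ?_
    rw [norm_mul]
    exact mul_le_of_le_one_right (norm_nonneg _) (norm_chi_le C g)
  rw [← Summable.tsum_finsetSum (fun i _ => h1 i)]
  have key := tsum_subtype {g : G | ConjClasses.mk g = C} (fun g => ∑ i, e i i g)
  refine Eq.trans key ?_
  congr 1; ext g
  by_cases hg : ConjClasses.mk g = C
  · rw [Set.indicator_of_mem (by exact hg)]
    simp [chi, hg]
  · rw [Set.indicator_of_notMem (by exact hg)]
    simp [chi, hg]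

lemma trC_eq {q : ℕ} (f : Matrix (Fin q) (Fin q) (MonoidAlgebra ℂ G)) (C : ConjClasses G) :
    trC (chi C) f = ∑ i, ∑' g, (f i i).coeff g * chi C g := by
  unfold trC Finsupp.sum
  apply Finset.sum_congr rfl; intro i _
  rw [tsum_eq_sum (s := (f i i).coeff.support)]
  intro g hg
  simp [Finsupp.notMem_support_iff.mp hg]

/-- finite truncation of a matrix of functions -/
noncomputable def trunc {q : ℕ} (e : Fin q → Fin q → G → ℂ) (s : Finset G) :
    Matrix (Fin q) (Fin q) (MonoidAlgebra ℂ G) := fun i j => ∑ g ∈ s, single g (e i j g)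

lemma trunc_coeff {q : ℕ} (e : Fin q → Fin q → G → ℂ) (s : Finset G) [DecidableEq G]
    (i j : Fin q) (g : G) :
    (trunc e s i j).coeff g = if g ∈ s then e i j g else 0 := by
  unfold trunc
  rw [coeff_sum, Finsupp.finsetSum_apply]
  simp only [coeff_single, Finsupp.single_apply]
  rw [Finset.sum_ite_eq' s g (fun h => e i j h)]

lemma approx {q : ℕ} (e : Fin q → Fin q → G → ℂ) (he : IsL1Matrix e) (hid : IsIdempotentMatrix e)
    (C : ConjClasses G) (ε : ℝ) (hε : 0 < ε) :
    ∃ f : Matrix (Fin q) (Fin q) (MonoidAlgebra ℂ G),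
      WM (fun _ => 1) f ≤ ∑ i, ∑ j, l1 (e i j) ∧
      WM (fun _ => 1) (f * f - f) ≤ (2 * (∑ i, ∑ j, l1 (e i j)) + 1) * ε ∧
      ‖hsCoeff e C - trC (chi C) f‖ ≤ ε := by
  classical
  set E : ℝ := ∑ i, ∑ j, l1 (e i j) with hE
  have hE0 : 0 ≤ E := Finset.sum_nonneg fun i _ => Finset.sum_nonneg fun j _ => l1_nonneg _
  have hF : Summable fun g => ∑ i, ∑ j, ‖e i j g‖ :=
    summable_sum fun i _ => summable_sum fun j _ => he i j
  obtain ⟨s, hs⟩ := ((tendsto_order.1 hF.hasSum).1 ((∑' g, ∑ i, ∑ j, ‖e i j g‖) - ε)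
    (by linarith)).exists
  have hs' : (∑' g, ∑ i, ∑ j, ‖e i j g‖) - ∑ g ∈ s, ∑ i, ∑ j, ‖e i j g‖ < ε := by linarith
  set f := trunc e s with hf
  set dl : Fin q → Fin q → G → ℂ := fun i j g => if g ∈ s then 0 else e i j g with hdl
  have hfc : ∀ i j g, (f i j).coeff g = if g ∈ s then e i j g else 0 := fun i j g =>
    trunc_coeff e s i j g
  have hef : ∀ i j, e i j = fun g => (f i j).coeff g + dl i j g := fun i j => by
    ext g; rw [hfc, hdl]; by_cases h : g ∈ s <;> simp [h]
  have hfs : ∀ i j, Summable fun g => ‖(f i j).coeff g‖ := fun i j => summable_coeff _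
  have hfle : ∀ i j g, ‖(f i j).coeff g‖ ≤ ‖e i j g‖ := fun i j g => by
    rw [hfc]; by_cases h : g ∈ s <;> simp [h]
  have hdle : ∀ i j g, ‖dl i j g‖ ≤ ‖e i j g‖ := fun i j g => by
    rw [hdl]; by_cases h : g ∈ s <;> simp [h]
  have hds : ∀ i j, Summable fun g => ‖dl i j g‖ := fun i j =>
    Summable.of_nonneg_of_le (fun _ => norm_nonneg _) (hdle i j) (he i j)
  have hWf : ∀ i j, W (fun _ => 1) (f i j) ≤ l1 (e i j) := fun i j => by
    rw [W_one_eq_l1]
    exact (hfs i j).tsum_le_tsum (hfle i j) (he i j)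
  have hdsum : ∑ i, ∑ j, l1 (dl i j) ≤ ε := by
    have e1 : ∑ i, ∑ j, l1 (dl i j) = ∑' g, ∑ i, ∑ j, ‖dl i j g‖ := by
      unfold l1
      rw [Summable.tsum_finsetSum (fun i _ => summable_sum fun j _ => hds i j)]
      apply Finset.sum_congr rfl; intro i _
      rw [Summable.tsum_finsetSum (fun j _ => hds i j)]
    have e2 : (∑' g, ∑ i, ∑ j, ‖dl i j g‖) + ∑ g ∈ s, ∑ i, ∑ j, ‖e i j g‖ =
        ∑' g, ∑ i, ∑ j, ‖e i j g‖ := by
      have e3 : ∑ g ∈ s, ∑ i, ∑ j, ‖e i j g‖ = ∑' g, if g ∈ s then ∑ i, ∑ j, ‖e i j g‖ else 0 := by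
        rw [tsum_eq_sum (s := s)]
        · apply Finset.sum_congr rfl; intro g hg; simp [hg]
        · intro g hg; simp [hg]
      rw [e3, ← Summable.tsum_add]
      · congr 1; ext g
        by_cases h : g ∈ s <;> simp [hdl, h]
      · exact summable_sum fun i _ => summable_sum fun j _ => hds i j
      · exact summable_of_ne_finset_zero (s := s) (fun g hg => by simp [hg])
    rw [e1]; linarith
  refine ⟨f, ?_, ?_, ?_⟩
  · unfold WM
    exact Finset.sum_le_sum fun i _ => Finset.sum_le_sum fun j _ => hWf i j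
  · -- the defect
    have key : ∀ i j, W (fun _ => 1) ((f * f - f) i j) ≤
        (∑ k, l1 (dl i k) * l1 (e k j)) + (∑ k, l1 (e i k) * l1 (dl k j)) + l1 (dl i j) := by
      intro i j
      rw [W_one_eq_l1]
      have pt : ∀ g, ((f * f - f) i j).coeff g =
          dl i j g - ∑ k, (conv (dl i k) (fun g => (f k j).coeff g) g +
            conv (e i k) (dl k j) g) := by
        intro g
        have h1 : ((f * f - f) i j).coeff g = ∑ k, (f i k * f k j).coeff g - (f i j).coeff g := by
          rw [Matrix.sub_apply, Matrix.mul_apply, coeff_sub, coeff_sum]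
          simp
        have h2 : ∀ k, (f i k * f k j).coeff g = conv (e i k) (e k j) g -
            (conv (dl i k) (fun g => (f k j).coeff g) g + conv (e i k) (dl k j) g) := by
          intro k
          rw [coeff_mul_eq_conv]
          have h3 : conv (e i k) (e k j) g = conv (e i k) (fun g => (f k j).coeff g) g +
              conv (e i k) (dl k j) g := by
            conv_lhs => rw [hef k j]
            exact conv_add_right (he i k) (hfs k j) (hds k j) g
          have h4 : conv (e i k) (fun g => (f k j).coeff g) g =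
              conv (fun g => (f i k).coeff g) (fun g => (f k j).coeff g) g +
              conv (dl i k) (fun g => (f k j).coeff g) g := by
            conv_lhs => rw [hef i k]
            exact conv_add_left (hfs i k) (hds i k) (hfs k j) g
          rw [h3, h4]; ring
        rw [h1]
        simp only [h2]
        rw [Finset.sum_sub_distrib, hid i j g]
        have h5 : e i j g = (f i j).coeff g + dl i j g := congrFun (hef i j) g
        rw [h5]; ring
      have sm : Summable fun g => ‖dl i j g‖ + ∑ k, (‖conv (dl i k) (fun g => (f k j).coeff g) g‖ +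
            ‖conv (e i k) (dl k j) g‖) :=
        (hds i j).add (summable_sum fun k _ =>
          (summable_norm_conv (hds i k) (hfs k j)).add (summable_norm_conv (he i k) (hds k j)))
      have ub : ∀ g, ‖((f * f - f) i j).coeff g‖ ≤ ‖dl i j g‖ +
          ∑ k, (‖conv (dl i k) (fun g => (f k j).coeff g) g‖ + ‖conv (e i k) (dl k j) g‖) := by
        intro g
        rw [pt g]
        refine (norm_sub_le _ _).trans ?_
        gcongr
        refine (norm_sum_le _ _).trans ?_
        gcongr
        exact norm_add_le _ _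
      calc l1 (fun g => ((f * f - f) i j).coeff g)
          ≤ ∑' g, (‖dl i j g‖ + ∑ k, (‖conv (dl i k) (fun g => (f k j).coeff g) g‖ +
            ‖conv (e i k) (dl k j) g‖)) := (summable_coeff _).tsum_le_tsum ub sm
        _ = l1 (dl i j) + ∑ k, (l1 (conv (dl i k) (fun g => (f k j).coeff g)) +
            l1 (conv (e i k) (dl k j))) := by
            rw [Summable.tsum_add (hds i j) (summable_sum fun k _ =>
              (summable_norm_conv (hds i k) (hfs k j)).add (summable_norm_conv (he i k) (hds k j)))]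
            congr 1
            rw [Summable.tsum_finsetSum (fun k _ =>
              (summable_norm_conv (hds i k) (hfs k j)).add (summable_norm_conv (he i k) (hds k j)))]
            apply Finset.sum_congr rfl; intro k _
            rw [Summable.tsum_add (summable_norm_conv (hds i k) (hfs k j))
              (summable_norm_conv (he i k) (hds k j))]
            rfl
        _ ≤ l1 (dl i j) + ∑ k, (l1 (dl i k) * l1 (e k j) + l1 (e i k) * l1 (dl k j)) := by
            gcongr with k _
            · refine (l1_conv_le (hds i k) (hfs k j)).trans ?_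
              apply mul_le_mul_of_nonneg_left _ (l1_nonneg _)
              exact (hfs k j).tsum_le_tsum (hfle k j) (he k j)
            · exact l1_conv_le (he i k) (hds k j)
        _ = _ := by rw [Finset.sum_add_distrib]; ring
    calc WM (fun _ => 1) (f * f - f)
        ≤ ∑ i, ∑ j, ((∑ k, l1 (dl i k) * l1 (e k j)) + (∑ k, l1 (e i k) * l1 (dl k j)) +
            l1 (dl i j)) := Finset.sum_le_sum fun i _ => Finset.sum_le_sum fun j _ => key i j
      _ = (∑ i, ∑ j, ∑ k, l1 (dl i k) * l1 (e k j)) + (∑ i, ∑ j, ∑ k, l1 (e i k) * l1 (dl k j)) +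
            ∑ i, ∑ j, l1 (dl i j) := by
          simp only [Finset.sum_add_distrib]
      _ ≤ (∑ i, ∑ j, l1 (dl i j)) * E + E * (∑ i, ∑ j, l1 (dl i j)) + ∑ i, ∑ j, l1 (dl i j) := by
          gcongr
          · exact sum3_le _ _ (fun _ _ => l1_nonneg _) (fun _ _ => l1_nonneg _)
          · exact sum3_le _ _ (fun _ _ => l1_nonneg _) (fun _ _ => l1_nonneg _)
      _ ≤ ε * E + E * ε + ε := by gcongr
      _ = _ := by ring
  · rw [hsCoeff_eq e he, trC_eq, ← Finset.sum_sub_distrib]
    refine (norm_sum_le _ _).trans ?_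
    refine le_trans (Finset.sum_le_sum fun i _ => ?_) hdsum
    have h1 : Summable fun g => e i i g * chi C g := by
      refine Summable.of_norm_bounded (g := fun g => ‖e i i g‖) (he i i) fun g => ?_
      rw [norm_mul]
      exact mul_le_of_le_one_right (norm_nonneg _) (norm_chi_le C g)
    have h2 : Summable fun g => (f i i).coeff g * chi C g := by
      refine Summable.of_norm_bounded (g := fun g => ‖(f i i).coeff g‖) (hfs i i) fun g => ?_
      rw [norm_mul]
      exact mul_le_of_le_one_right (norm_nonneg _) (norm_chi_le C g)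
    rw [← Summable.tsum_sub h1 h2]
    have h3 : ∀ g, ‖e i i g * chi C g - (f i i).coeff g * chi C g‖ ≤ ‖dl i i g‖ := by
      intro g
      rw [← sub_mul, norm_mul]
      have : e i i g - (f i i).coeff g = dl i i g := by
        rw [congrFun (hef i i) g]; ring
      rw [this]
      exact mul_le_of_le_one_right (norm_nonneg _) (norm_chi_le C g)
    have h4 : Summable fun g => ‖e i i g * chi C g - (f i i).coeff g * chi C g‖ :=
      Summable.of_nonneg_of_le (fun _ => norm_nonneg _) h3 (hds i i)
    calc _ ≤ ∑' g, ‖e i i g * chi C g - (f i i).coeff g * chi C g‖ := norm_tsum_le_tsum_norm h4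
      _ ≤ l1 (dl i i) := h4.tsum_le_tsum h3 (hds i i)
      _ ≤ ∑ j, l1 (dl i j) := Finset.single_le_sum (f := fun j => l1 (dl i j))
          (fun j _ => l1_nonneg _) (Finset.mem_univ i)

end Vale.Agent.L1Bass
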