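import Vale.Agent.L1Bass.Defs
import Vale.Agent.L1Bass.L1

set_option linter.unusedSectionVars false

namespace Vale.Agent.L1Bass

open Filter Topology

section ulim

noncomputable def ulim (s : ℕ → ℝ) : ℝ := limUnder (hyperfilter ℕ : Filter ℕ) s

lemma ulim_spec {s : ℕ → ℝ} {B : ℝ} (hB : ∀ n, |s n| ≤ B) :
    Tendsto s (hyperfilter ℕ : Filter ℕ) (𝓝 (ulim s)) := by
  apply tendsto_nhds_limUnder
  have hmem : ((hyperfilter ℕ).map s : Filter ℝ) ≤ 𝓟 (Set.Icc (-B) B) := by
    rw [Filter.le_principal_iff]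
    change s ⁻¹' (Set.Icc (-B) B) ∈ (hyperfilter ℕ : Filter ℕ)
    exact Filter.univ_mem' (fun n => abs_le.mp (hB n))
  obtain ⟨x, _, hx⟩ := isCompact_Icc.ultrafilter_le_nhds ((hyperfilter ℕ).map s) hmem
  exact ⟨x, hx⟩

lemma ulim_eq {s : ℕ → ℝ} {l : ℝ} (h : Tendsto s atTop (𝓝 l)) : ulim s = l :=
  (h.mono_left Nat.hyperfilter_le_atTop).limUnder_eq

end ulim

variable {G : Type*} [Group G] {X : Type*} [PseudoMetricSpace X] [MulAction G X]

lemma quad (hSP : SemiParallelogram X) (a b c d : X) :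
    dist a c ^ 2 + dist b d ^ 2 ≤ dist a b ^ 2 + dist b c ^ 2 + dist c d ^ 2 + dist a d ^ 2 := by
  obtain ⟨m, hm⟩ := hSP a c
  have h1 := hm b
  have h2 := hm d
  have h3 : dist b d ≤ dist b m + dist d m := dist_triangle_right b d m
  have h4 : dist b d ^ 2 ≤ (dist b m + dist d m) ^ 2 := by
    gcongr
  have h5 : (dist b m + dist d m) ^ 2 ≤ 2 * dist b m ^ 2 + 2 * dist d m ^ 2 := by
    nlinarith [sq_nonneg (dist b m - dist d m)]
  rw [dist_comm b a] at h1
  rw [dist_comm d a, dist_comm d c] at h2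
  linarith

lemma quad_abs (hSP : SemiParallelogram X) (a b c d : X) :
    |(dist a c ^ 2 - dist b c ^ 2) - (dist a d ^ 2 - dist b d ^ 2)| ≤
      dist a b ^ 2 + dist c d ^ 2 := by
  have h1 := quad hSP a b c d
  have h2 := quad hSP b a c d
  rw [dist_comm b a] at h2
  rw [abs_le]
  constructor <;> linarith

/-- the averaged difference of squared distances to the orbit of `x` -/
noncomputable def S (p0 : X) (x : G) (p q : X) (N : ℕ) : ℝ :=
  (∑ n ∈ Finset.range N, (dist p (x ^ n • p0) ^ 2 - dist q (x ^ n • p0) ^ 2)) / (N : ℝ) ^ 2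

noncomputable def beta (p0 : X) (x : G) (p q : X) : ℝ := ulim (S p0 x p q)

lemma orbit_le (hiso : ∀ (h : G) (x y : X), dist (h • x) (h • y) = dist x y) (p0 : X) (x : G)
    (n : ℕ) : dist p0 (x ^ n • p0) ≤ n * dist p0 (x • p0) := by
  induction n with
  | zero => simp
  | succ n ih =>
    calc dist p0 (x ^ (n + 1) • p0) ≤ dist p0 (x ^ n • p0) + dist (x ^ n • p0) (x ^ (n + 1) • p0) :=
          dist_triangle _ _ _
      _ = dist p0 (x ^ n • p0) + dist p0 (x • p0) := by
          rw [pow_succ, mul_smul, hiso]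
      _ ≤ n * dist p0 (x • p0) + dist p0 (x • p0) := by gcongr
      _ = _ := by push_cast; ring

lemma term_le (p0 : X) (p q y : X) :
    |dist p y ^ 2 - dist q y ^ 2| ≤ dist p q * (dist p p0 + dist q p0 + 2 * dist p0 y) := by
  have h1 : |dist p y - dist q y| ≤ dist p q := abs_dist_sub_le p q y
  have h2 : dist p y ≤ dist p p0 + dist p0 y := dist_triangle _ _ _
  have h3 : dist q y ≤ dist q p0 + dist p0 y := dist_triangle _ _ _
  have h4 : dist p y ^ 2 - dist q y ^ 2 = (dist p y - dist q y) * (dist p y + dist q y) := by ring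
  rw [h4, abs_mul, abs_of_nonneg (a := dist p y + dist q y) (by positivity)]
  calc |dist p y - dist q y| * (dist p y + dist q y) ≤ dist p q * (dist p y + dist q y) := by
        gcongr
    _ ≤ _ := by
        apply mul_le_mul_of_nonneg_left _ dist_nonneg
        linarith

lemma abs_S_le (p0 : X) (x : G) (p q : X) (N : ℕ) :
    |S p0 x p q N| ≤ dist p q * ((dist p p0 + dist q p0) * N +
      2 * ∑ n ∈ Finset.range N, dist p0 (x ^ n • p0)) / (N : ℝ) ^ 2 := by
  unfold S
  rw [abs_div, abs_of_nonneg (a := (N : ℝ) ^ 2) (by positivity)]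
  gcongr
  refine (Finset.abs_sum_le_sum_abs _ _).trans ?_
  calc ∑ n ∈ Finset.range N, |dist p (x ^ n • p0) ^ 2 - dist q (x ^ n • p0) ^ 2|
      ≤ ∑ n ∈ Finset.range N, dist p q * (dist p p0 + dist q p0 + 2 * dist p0 (x ^ n • p0)) :=
        Finset.sum_le_sum fun n _ => term_le p0 p q _
    _ = _ := by
        rw [← Finset.mul_sum, Finset.sum_add_distrib, Finset.sum_const, Finset.card_range,
          ← Finset.mul_sum, nsmul_eq_mul]
        ring

lemma S_bdd (hiso : ∀ (h : G) (x y : X), dist (h • x) (h • y) = dist x y) (p0 : X) (x : G)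
    (p q : X) (N : ℕ) :
    |S p0 x p q N| ≤ dist p q * (dist p p0 + dist q p0 + 2 * dist p0 (x • p0)) := by
  rcases Nat.eq_zero_or_pos N with rfl | hN
  · simp [S]; positivity
  have hN' : (1 : ℝ) ≤ N := by exact_mod_cast hN
  refine (abs_S_le p0 x p q N).trans ?_
  rw [div_le_iff₀ (by positivity)]
  have h1 : ∑ n ∈ Finset.range N, dist p0 (x ^ n • p0) ≤ N * (N * dist p0 (x • p0)) := by
    calc _ ≤ ∑ n ∈ Finset.range N, (N : ℝ) * dist p0 (x • p0) := by
          apply Finset.sum_le_sum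
          intro n hn
          refine (orbit_le hiso p0 x n).trans ?_
          gcongr
          exact (Finset.mem_range.mp hn).le
      _ = _ := by simp
  have h2 : (N : ℝ) ≤ N ^ 2 := by nlinarith
  calc dist p q * ((dist p p0 + dist q p0) * N + 2 * ∑ n ∈ Finset.range N, dist p0 (x ^ n • p0))
      ≤ dist p q * ((dist p p0 + dist q p0) * (N : ℝ) ^ 2 + 2 * (N * (N * dist p0 (x • p0)))) := by
        gcongr
    _ = _ := by ring

lemma beta_spec (hiso : ∀ (h : G) (x y : X), dist (h • x) (h • y) = dist x y) (p0 : X) (x : G)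
    (p q : X) : Tendsto (S p0 x p q) (hyperfilter ℕ : Filter ℕ) (𝓝 (beta p0 x p q)) :=
  ulim_spec (S_bdd hiso p0 x p q)

lemma beta_add (hiso : ∀ (h : G) (x y : X), dist (h • x) (h • y) = dist x y) (p0 : X) (x : G)
    (p q r : X) : beta p0 x p q + beta p0 x q r = beta p0 x p r := by
  have h1 := (beta_spec hiso p0 x p q).add (beta_spec hiso p0 x q r)
  refine tendsto_nhds_unique h1 ?_
  refine (beta_spec hiso p0 x p r).congr fun N => ?_
  unfold S
  rw [← add_div, ← Finset.sum_add_distrib]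
  congr 1
  apply Finset.sum_congr rfl
  intro n _; ring

lemma tendsto_const_div_nat (A : ℝ) : Tendsto (fun N : ℕ => A / (N : ℝ)) atTop (𝓝 0) :=
  tendsto_const_div_atTop_nhds_zero_nat A

lemma beta_conj (hiso : ∀ (h : G) (x y : X), dist (h • x) (h • y) = dist x y)
    (hSP : SemiParallelogram X) (p0 : X) (x k : G) (p q : X) :
    beta p0 (k * x * k⁻¹) (k • p) (k • q) = beta p0 x p q := by
  have h1 := (beta_spec hiso p0 (k * x * k⁻¹) (k • p) (k • q)).sub (beta_spec hiso p0 x p q)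
  have h2 : Tendsto (fun N => S p0 (k * x * k⁻¹) (k • p) (k • q) N - S p0 x p q N) atTop (𝓝 0) := by
    refine squeeze_zero_norm (a := fun N : ℕ =>
      (dist p q ^ 2 + dist (k⁻¹ • p0) p0 ^ 2) / (N : ℝ)) ?_ (tendsto_const_div_nat _)
    intro N
    rcases Nat.eq_zero_or_pos N with rfl | hN
    · simp [S]
    have hN' : (0 : ℝ) < N := by exact_mod_cast hN
    unfold S
    rw [← sub_div, ← Finset.sum_sub_distrib, Real.norm_eq_abs, abs_div,
      abs_of_nonneg (a := (N : ℝ) ^ 2) (by positivity), div_le_div_iff₀ (by positivity) hN']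
    have h3 : |∑ n ∈ Finset.range N, ((dist (k • p) ((k * x * k⁻¹) ^ n • p0) ^ 2 -
        dist (k • q) ((k * x * k⁻¹) ^ n • p0) ^ 2) -
        (dist p (x ^ n • p0) ^ 2 - dist q (x ^ n • p0) ^ 2))| ≤
        N * (dist p q ^ 2 + dist (k⁻¹ • p0) p0 ^ 2) := by
      refine (Finset.abs_sum_le_sum_abs _ _).trans ?_
      calc _ ≤ ∑ n ∈ Finset.range N, (dist p q ^ 2 + dist (k⁻¹ • p0) p0 ^ 2) := by
            apply Finset.sum_le_sum
            intro n _
            have h4 : (k * x * k⁻¹) ^ n • p0 = k • (x ^ n • (k⁻¹ • p0)) := by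
              rw [conj_pow, mul_smul, mul_smul]
            rw [h4, hiso, hiso]
            have h5 := quad_abs hSP p q (x ^ n • (k⁻¹ • p0)) (x ^ n • p0)
            rwa [hiso] at h5
        _ = _ := by rw [Finset.sum_const, Finset.card_range, nsmul_eq_mul]
    calc _ ≤ (N * (dist p q ^ 2 + dist (k⁻¹ • p0) p0 ^ 2)) * (N : ℝ) := by gcongr
      _ = _ := by ring
  have h3 := tendsto_nhds_unique h1 (h2.mono_left Nat.hyperfilter_le_atTop)
  linarith

/-- the bound in terms of the translation length -/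
lemma abs_beta_le (hiso : ∀ (h : G) (x y : X), dist (h • x) (h • y) = dist x y) (p0 : X) (x : G)
    (p q : X) (ℓ : ℝ) (hℓ : Tendsto (fun n : ℕ => dist p0 (x ^ n • p0) / n) atTop (𝓝 ℓ)) :
    |beta p0 x p q| ≤ 2 * ℓ * dist p q := by
  have h1 := (beta_spec hiso p0 x p q).abs
  have h2 : Tendsto (fun N : ℕ => dist p q * ((dist p p0 + dist q p0) / (N : ℝ) +
      2 * ((N : ℝ)⁻¹ * ∑ n ∈ Finset.range N, dist p0 (x ^ n • p0) / n))) atTop
      (𝓝 (dist p q * (0 + 2 * ℓ))) :=
    ((tendsto_const_div_nat _).add ((hℓ.cesaro).const_mul 2)).const_mul _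
  have h3 := le_of_tendsto_of_tendsto h1 (h2.mono_left Nat.hyperfilter_le_atTop)
    (Filter.Eventually.of_forall (fun N => ?_))
  · calc _ ≤ _ := h3
      _ = _ := by ring
  · refine (abs_S_le p0 x p q N).trans ?_
    rcases Nat.eq_zero_or_pos N with rfl | hN
    · simp
    have hN' : (0 : ℝ) < N := by exact_mod_cast hN
    have h4 : ∑ n ∈ Finset.range N, dist p0 (x ^ n • p0) ≤
        N * ∑ n ∈ Finset.range N, dist p0 (x ^ n • p0) / n := by
      rw [Finset.mul_sum]
      apply Finset.sum_le_sum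
      intro n hn
      rcases Nat.eq_zero_or_pos n with rfl | hn0
      · simp
      have hn' : (0 : ℝ) < n := by exact_mod_cast hn0
      have hnN : (n : ℝ) ≤ N := by exact_mod_cast (Finset.mem_range.mp hn).le
      rw [mul_div_assoc', le_div_iff₀ hn', mul_comm]
      gcongr
    calc dist p q * ((dist p p0 + dist q p0) * N +
          2 * ∑ n ∈ Finset.range N, dist p0 (x ^ n • p0)) / (N : ℝ) ^ 2
        ≤ dist p q * ((dist p p0 + dist q p0) * N +
          2 * (N * ∑ n ∈ Finset.range N, dist p0 (x ^ n • p0) / n)) / (N : ℝ) ^ 2 := by gcongr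
      _ = _ := by field_simp

lemma beta_self (hiso : ∀ (h : G) (x y : X), dist (h • x) (h • y) = dist x y) (p0 : X) (x : G)
    (ℓ : ℝ) (hℓ : Tendsto (fun n : ℕ => dist p0 (x ^ n • p0) / n) atTop (𝓝 ℓ)) :
    beta p0 x p0 (x • p0) = ℓ ^ 2 := by
  apply ulim_eq
  rw [← tendsto_add_atTop_iff_nat 1]
  have h1 : ∀ M : ℕ, S p0 x p0 (x • p0) (M + 1) =
      (dist p0 (x ^ M • p0) / (M : ℝ)) ^ 2 * ((M : ℝ) / ((M : ℝ) + 1)) ^ 2 -
      dist p0 (x • p0) ^ 2 / ((M : ℝ) + 1) ^ 2 := by
    intro M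
    have h2 : ∀ M : ℕ, ∑ n ∈ Finset.range (M + 1), (dist p0 (x ^ n • p0) ^ 2 -
        dist (x • p0) (x ^ n • p0) ^ 2) = dist p0 (x ^ M • p0) ^ 2 - dist p0 (x • p0) ^ 2 := by
      intro M
      induction M with
      | zero => simp [dist_comm]
      | succ M ih =>
        rw [Finset.sum_range_succ, ih]
        have h3 : dist (x • p0) (x ^ (M + 1) • p0) = dist p0 (x ^ M • p0) := by
          rw [pow_succ', mul_smul, hiso]
        rw [h3]; ring
    unfold S
    rw [h2]
    push_cast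
    rcases Nat.eq_zero_or_pos M with rfl | hM
    · simp
    have hM' : (0 : ℝ) < M := by exact_mod_cast hM
    field_simp
  have h4 : Tendsto (fun M : ℕ => (M : ℝ) / ((M : ℝ) + 1)) atTop (𝓝 1) :=
    tendsto_natCast_div_add_atTop 1
  have h5 : Tendsto (fun M : ℕ => dist p0 (x • p0) ^ 2 / ((M : ℝ) + 1) ^ 2) atTop (𝓝 0) := by
    apply Tendsto.const_div_atTop
    apply (tendsto_pow_atTop (by norm_num)).comp
    exact tendsto_atTop_add_const_right _ _ tendsto_natCast_atTop_atTop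
  have h6 := ((hℓ.pow 2).mul (h4.pow 2)).sub h5
  simp only [one_pow, mul_one, sub_zero] at h6
  exact h6.congr fun M => (h1 M).symm

lemma tlen_conj (hiso : ∀ (h : G) (x y : X), dist (h • x) (h • y) = dist x y) (p0 : X) (x k : G)
    (ℓ : ℝ) (hℓ : Tendsto (fun n : ℕ => dist p0 (x ^ n • p0) / n) atTop (𝓝 ℓ)) :
    Tendsto (fun n : ℕ => dist p0 ((k * x * k⁻¹) ^ n • p0) / n) atTop (𝓝 ℓ) := by
  have h1 : Tendsto (fun n : ℕ => dist p0 ((k * x * k⁻¹) ^ n • p0) / n -
      dist p0 (x ^ n • p0) / n) atTop (𝓝 0) := by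
    refine squeeze_zero_norm (a := fun n : ℕ => (2 * dist (k⁻¹ • p0) p0) / (n : ℝ)) ?_
      (tendsto_const_div_nat _)
    intro n
    rw [← sub_div, Real.norm_eq_abs, abs_div, abs_of_nonneg (a := (n : ℝ)) (by positivity)]
    gcongr
    have h2 : dist p0 ((k * x * k⁻¹) ^ n • p0) = dist (k⁻¹ • p0) (x ^ n • (k⁻¹ • p0)) := by
      rw [conj_pow, mul_smul, mul_smul]
      conv_lhs => rw [← hiso k⁻¹, inv_smul_smul]
    rw [h2]
    have h3 : dist (x ^ n • (k⁻¹ • p0)) (x ^ n • p0) = dist (k⁻¹ • p0) p0 := hiso _ _ _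
    have h4 : |dist (k⁻¹ • p0) (x ^ n • (k⁻¹ • p0)) - dist p0 (x ^ n • p0)| ≤
        dist (k⁻¹ • p0) p0 + dist (x ^ n • (k⁻¹ • p0)) (x ^ n • p0) := by
      rw [← Real.dist_eq]; exact dist_dist_dist_le _ _ _ _
    linarith
  simpa using h1.add hℓ

/-- existence of the translation length -/
lemma exists_tlen (hiso : ∀ (h : G) (x y : X), dist (h • x) (h • y) = dist x y) (p0 : X) (x : G)
    (c : ℝ) (hc : 0 < c) (h : ∀ n : ℕ, c * n ≤ dist p0 (x ^ n • p0)) :
    ∃ ℓ : ℝ, 0 < ℓ ∧ Tendsto (fun n : ℕ => dist p0 (x ^ n • p0) / n) atTop (𝓝 ℓ) := by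
  have hs : Subadditive (fun n : ℕ => dist p0 (x ^ n • p0)) := by
    intro m n
    calc dist p0 (x ^ (m + n) • p0) ≤ dist p0 (x ^ m • p0) + dist (x ^ m • p0) (x ^ (m + n) • p0) :=
          dist_triangle _ _ _
      _ = _ := by rw [pow_add, mul_smul, hiso]
  have hb : BddBelow (Set.range fun n : ℕ => dist p0 (x ^ n • p0) / n) :=
    ⟨0, by rintro _ ⟨n, rfl⟩; positivity⟩
  have ht := hs.tendsto_lim hb
  refine ⟨hs.lim, lt_of_lt_of_le hc ?_, ht⟩
  refine ge_of_tendsto ht ?_
  filter_upwards [eventually_gt_atTop 0] with n hn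
  have hn' : (0 : ℝ) < n := by exact_mod_cast hn
  rw [le_div_iff₀ hn']
  exact h n

lemma exists_cocycle (hiso : ∀ (h : G) (x y : X), dist (h • x) (h • y) = dist x y)
    (hSP : SemiParallelogram X) (p0 : X) (g : G)
    (c : ℝ) (hc : 0 < c) (h : ∀ n : ℕ, c * n ≤ dist p0 (g ^ n • p0)) :
    ∃ (ω : G → G → ℂ) (K : ℝ), 0 ≤ K ∧ (∀ x y, ‖ω x y‖ ≤ K * dist p0 (y • p0)) ∧
      (∀ x y z, ω x (y * z) = ω (x * y) z + ω (z * x) y) ∧
      ω 1 = chi (ConjClasses.mk g) := by
  classical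
  obtain ⟨ℓ, hℓ0, hℓ⟩ := exists_tlen hiso p0 g c hc h
  have hconj : ∀ x : G, ConjClasses.mk x = ConjClasses.mk g →
      Tendsto (fun n : ℕ => dist p0 (x ^ n • p0) / n) atTop (𝓝 ℓ) := by
    intro x hx
    rw [ConjClasses.mk_eq_mk_iff_isConj] at hx
    obtain ⟨k, hk⟩ := isConj_iff.mp hx.symm
    rw [← hk]
    exact tlen_conj hiso p0 g k ℓ hℓ
  have hcyc : ∀ x y : G, ConjClasses.mk (x * y) = ConjClasses.mk (y * x) := by
    intro x y
    rw [ConjClasses.mk_eq_mk_iff_isConj]
    exact isConj_iff.mpr ⟨y, by group⟩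
  refine ⟨fun x y => if ConjClasses.mk (x * y) = ConjClasses.mk g then
    ((beta p0 (y * x) p0 (y • p0) / ℓ ^ 2 : ℝ) : ℂ) else 0, 2 / ℓ, by positivity, ?_, ?_, ?_⟩
  · intro x y
    by_cases hxy : ConjClasses.mk (x * y) = ConjClasses.mk g
    · simp only [hxy, if_true]
      rw [Complex.norm_real, Real.norm_eq_abs, abs_div, abs_of_nonneg (a := ℓ ^ 2) (by positivity)]
      have h1 := abs_beta_le hiso p0 (y * x) p0 (y • p0) ℓ (hconj _ (by rw [← hcyc, hxy]))
      rw [div_le_iff₀ (by positivity)]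
      calc _ ≤ _ := h1
        _ = _ := by field_simp
    · simp only [hxy, if_false, norm_zero]
      positivity
  · intro x y z
    have e1 : ConjClasses.mk (x * (y * z)) = ConjClasses.mk (x * y * z) := by rw [mul_assoc]
    have e2 : ConjClasses.mk (z * x * y) = ConjClasses.mk (x * y * z) := by
      rw [mul_assoc z x y, hcyc]
    simp only [e1, e2]
    by_cases hxy : ConjClasses.mk (x * y * z) = ConjClasses.mk g
    · simp only [hxy, if_true]
      rw [← Complex.ofReal_add]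
      congr 1
      rw [← add_div]
      congr 1
      have e3 : beta p0 (z * (x * y)) p0 (z • p0) = beta p0 (y * z * x) (y • p0) ((y * z) • p0) := by
        rw [← beta_conj hiso hSP p0 (z * (x * y)) y p0 (z • p0)]
        congr 1
        · group
        · rw [mul_smul]
      have e4 : y * (z * x) = y * z * x := by group
      rw [e3, e4, add_comm, beta_add hiso]
    · simp only [hxy, if_false, add_zero]
  · funext y
    unfold chi
    simp only [one_mul, mul_one]
    by_cases hy : ConjClasses.mk y = ConjClasses.mk g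
    · simp only [hy, if_true]
      rw [beta_self hiso p0 y ℓ (hconj y hy), div_self (by positivity)]
      simp
    · simp only [hy, if_false]

end Vale.Agent.L1Bass
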