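import Mathlib

namespace Vale.Agent.L1Bass

/-- Purely algebraic identity for a Hochschild type form. -/
lemma key_identity {R : Type*} [Ring R] (Om : R → R → ℂ)
    (hadd1 : ∀ a b c, Om (a + b) c = Om a c + Om b c)
    (hadd2 : ∀ a b c, Om a (b + c) = Om a b + Om a c)
    (hcyc : ∀ a b c, Om a (b * c) = Om (a * b) c + Om (c * a) b)
    (f r : R) (hr : f * f = f + r) :
    Om 1 f = - Om 1 r + 2 * Om 1 (f * r) - 6 * Om r f := by
  have e1 : Om 1 f + Om 1 r = Om f f + Om f f := by
    rw [← hadd2, ← hr, hcyc, one_mul, mul_one]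
  have e2 : Om 1 f + Om 1 r + Om 1 (f * r) =
      (Om f f + Om r f) + (Om f f + Om r f) + (Om f f + Om r f) := by
    have h1 : f * (f * f) = f + r + f * r := by
      rw [hr, mul_add, hr]
    have h2 : Om 1 (f * (f * f)) = Om f (f * f) + Om (f * f) f := by
      rw [hcyc, one_mul, mul_one]
    have h3 : Om f (f * f) = Om (f * f) f + Om (f * f) f := by
      rw [hcyc]
    rw [h1] at h2
    rw [h3, hr, hadd1] at h2
    rw [← hadd2, ← hadd2, h2]
  linear_combination (-2 : ℂ) * e2 + 3 * e1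

/-- One step of the iteration towards an idempotent. -/
def stp {R : Type*} [Ring R] (f : R) : R := f + ((f * f - f) - ((f * f - f) * f + (f * f - f) * f))

lemma stp_err {R : Type*} [Ring R] (f : R) :
    stp f * stp f - stp f =
      -((f * f - f) * (f * f - f) + (f * f - f) * (f * f - f) + (f * f - f) * (f * f - f)) +
      ((f * f - f) * (f * f - f) * (f * f - f) + (f * f - f) * (f * f - f) * (f * f - f) +
      (f * f - f) * (f * f - f) * (f * f - f) + (f * f - f) * (f * f - f) * (f * f - f)) := by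
  unfold stp
  noncomm_ring

lemma iterate_lemma {R : Type*} [Ring R] (nrm N : R → ℝ) (T : R → ℂ) (K : ℝ)
    (hK : 0 ≤ K)
    (hn0 : ∀ x, 0 ≤ nrm x) (hN0 : ∀ x, 0 ≤ N x) (hnz : nrm 0 = 0)
    (hadd : ∀ x y, nrm (x + y) ≤ nrm x + nrm y) (hneg : ∀ x, nrm (-x) = nrm x)
    (hmul : ∀ x y, nrm (x * y) ≤ nrm x * nrm y)
    (hNadd : ∀ x y, N (x + y) ≤ N x + N y) (hNneg : ∀ x, N (-x) = N x)
    (hNmul : ∀ x y, N (x * y) ≤ N x * nrm y + nrm x * N y)
    (hTadd : ∀ x y, T (x + y) = T x + T y) (hT : ∀ x, ‖T x‖ ≤ nrm x)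
    (hkey : ∀ f, ‖T f‖ ≤ nrm (f * f - f) * (1 + 2 * nrm f) + K * (nrm (f * f - f) * N f))
    (M : ℝ) (hM : 0 ≤ M) :
    ∃ δ : ℝ, 0 < δ ∧ ∀ f, nrm f ≤ M → nrm (f * f - f) ≤ δ →
      ‖T f‖ ≤ 2 * (3 + 2 * M) * nrm (f * f - f) := by
  have hsub : ∀ x y, nrm (x - y) ≤ nrm x + nrm y := fun x y => by
    rw [sub_eq_add_neg]; exact (hadd _ _).trans (by rw [hneg])
  have hNsub : ∀ x y, N (x - y) ≤ N x + N y := fun x y => by
    rw [sub_eq_add_neg]; exact (hNadd _ _).trans (by rw [hNneg])
  set M1 : ℝ := M + 1 with hM1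
  set D : ℝ := 3 + 2 * M with hD
  have hDM : D = 1 + 2 * M1 := by rw [hD, hM1]; ring
  set K1 : ℝ := 1 + D + 2 * (D * M1 + 1) with hK1
  have hM1pos : 1 ≤ M1 := by linarith
  have hDpos : 3 ≤ D := by linarith
  have hK1D : D ≤ K1 := by nlinarith
  have hK1one : 1 ≤ K1 := by linarith
  -- one step
  have step_move : ∀ f, nrm f ≤ M1 → nrm (stp f - f) ≤ D * nrm (f * f - f) := by
    intro f hf
    have h1 : stp f - f = (f * f - f) - ((f * f - f) * f + (f * f - f) * f) := by
      unfold stp; abel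
    rw [h1]
    have h2 : nrm ((f * f - f) * f) ≤ nrm (f * f - f) * M1 :=
      (hmul _ _).trans (mul_le_mul_of_nonneg_left hf (hn0 _))
    calc _ ≤ nrm (f * f - f) + nrm ((f * f - f) * f + (f * f - f) * f) := hsub _ _
      _ ≤ nrm (f * f - f) + (nrm ((f * f - f) * f) + nrm ((f * f - f) * f)) := by
          gcongr; exact hadd _ _
      _ ≤ nrm (f * f - f) + (nrm (f * f - f) * M1 + nrm (f * f - f) * M1) := by gcongr
      _ = D * nrm (f * f - f) := by rw [hDM]; ring
  have step_N : ∀ f, nrm f ≤ M1 → nrm (f * f - f) ≤ 1 → N (stp f) ≤ K1 * N f := by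
    intro f hf hr
    have hNf := hN0 f
    have a1 : N (f * f - f) ≤ D * N f := by
      calc N (f * f - f) ≤ N (f * f) + N f := hNsub _ _
        _ ≤ (N f * nrm f + nrm f * N f) + N f := by gcongr; exact hNmul _ _
        _ ≤ (N f * M1 + M1 * N f) + N f := by gcongr
        _ = D * N f := by rw [hDM]; ring
    have a2 : N ((f * f - f) * f) ≤ (D * M1 + 1) * N f := by
      calc _ ≤ N (f * f - f) * nrm f + nrm (f * f - f) * N f := hNmul _ _
        _ ≤ (D * N f) * M1 + 1 * N f := by
            gcongr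
            · exact hn0 _
        _ = _ := by ring
    unfold stp
    calc _ ≤ N f + N ((f * f - f) - ((f * f - f) * f + (f * f - f) * f)) := hNadd _ _
      _ ≤ N f + (N (f * f - f) + N ((f * f - f) * f + (f * f - f) * f)) := by
          gcongr; exact hNsub _ _
      _ ≤ N f + (N (f * f - f) + (N ((f * f - f) * f) + N ((f * f - f) * f))) := by
          gcongr; exact hNadd _ _
      _ ≤ N f + (D * N f + ((D * M1 + 1) * N f + (D * M1 + 1) * N f)) := by gcongr
      _ = K1 * N f := by rw [hK1]; ring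
  have step_err : ∀ f, nrm (f * f - f) ≤ 1 →
      nrm (stp f * stp f - stp f) ≤ 7 * nrm (f * f - f) * nrm (f * f - f) := by
    intro f hr
    rw [stp_err]
    set r := f * f - f with hrdef
    have hr0 := hn0 r
    have b2 : nrm (r * r) ≤ nrm r * nrm r := hmul _ _
    have b3 : nrm (r * r * r) ≤ nrm r * nrm r := by
      calc _ ≤ nrm (r * r) * nrm r := hmul _ _
        _ ≤ (nrm r * nrm r) * 1 := by
            gcongr
        _ = _ := by ring
    calc _ ≤ nrm (-(r * r + r * r + r * r)) + nrm (r * r * r + r * r * r + r * r * r + r * r * r) :=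
          hadd _ _
      _ = nrm (r * r + r * r + r * r) + nrm (r * r * r + r * r * r + r * r * r + r * r * r) := by
          rw [hneg]
      _ ≤ (nrm (r * r) + nrm (r * r) + nrm (r * r)) +
          (nrm (r * r * r) + nrm (r * r * r) + nrm (r * r * r) + nrm (r * r * r)) := by
          gcongr
          · exact (hadd _ _).trans (by gcongr; exact hadd _ _)
          · refine (hadd _ _).trans ?_
            gcongr
            refine (hadd _ _).trans ?_
            gcongr
            exact hadd _ _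
      _ ≤ (nrm r * nrm r + nrm r * nrm r + nrm r * nrm r) +
          (nrm r * nrm r + nrm r * nrm r + nrm r * nrm r + nrm r * nrm r) := by gcongr
      _ = _ := by ring
  refine ⟨1 / (14 * K1), by positivity, ?_⟩
  intro f hfM hfδ
  set d : ℝ := nrm (f * f - f) with hd
  have hd0 : 0 ≤ d := hn0 _
  set δ : ℝ := 1 / (14 * K1) with hδ
  have hδK : 7 * δ = 1 / (2 * K1) := by rw [hδ]; field_simp; norm_num
  have hδ1 : δ ≤ 1 := by
    rw [hδ, div_le_one (by positivity)]; linarith
  have hδpos : 0 < δ := by positivity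
  have hDδ : 2 * D * δ ≤ 1 := by
    rw [hδ, mul_one_div, div_le_one (by positivity)]; linarith
  have hq : 1 / (2 * K1) ≤ 1 / 2 := by
    apply one_div_le_one_div_of_le <;> linarith
  have hq0 : 0 < 1 / (2 * K1) := by positivity
  have hq1 : 1 / (2 * K1) ≤ 1 := hq.trans (by norm_num)
  have inv : ∀ n : ℕ,
      nrm (stp^[n] f * stp^[n] f - stp^[n] f) ≤ d * (1 / (2 * K1)) ^ n ∧
      nrm (stp^[n] f - f) ≤ 2 * D * d * (1 - (1 / 2) ^ n) ∧
      N (stp^[n] f) ≤ K1 ^ n * N f ∧ nrm (stp^[n] f) ≤ M1 := by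
    intro n
    induction n with
    | zero =>
      refine ⟨by simp [hd], ?_, by simp, ?_⟩
      · simp [hnz]
      · simpa using hfM.trans (by linarith)
    | succ n ih =>
      obtain ⟨i1, i2, i3, i4⟩ := ih
      rw [Function.iterate_succ_apply']
      set fn := stp^[n] f with hfn
      have hrn : nrm (fn * fn - fn) ≤ δ := i1.trans (by
        calc d * (1 / (2 * K1)) ^ n ≤ d * 1 := by
              gcongr; exact pow_le_one₀ hq0.le hq1
          _ ≤ δ := by linarith)
      have hrn1 : nrm (fn * fn - fn) ≤ 1 := hrn.trans hδ1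
      have j1 : nrm (stp fn * stp fn - stp fn) ≤ d * (1 / (2 * K1)) ^ (n + 1) := by
        calc _ ≤ 7 * nrm (fn * fn - fn) * nrm (fn * fn - fn) := step_err fn hrn1
          _ ≤ 7 * δ * nrm (fn * fn - fn) := by
              gcongr
              exact hn0 _
          _ = (1 / (2 * K1)) * nrm (fn * fn - fn) := by rw [hδK]
          _ ≤ (1 / (2 * K1)) * (d * (1 / (2 * K1)) ^ n) := by gcongr
          _ = _ := by ring
      have j2 : nrm (stp fn - f) ≤ 2 * D * d * (1 - (1 / 2) ^ (n + 1)) := by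
        have : stp fn - f = (stp fn - fn) + (fn - f) := by abel
        rw [this]
        calc _ ≤ nrm (stp fn - fn) + nrm (fn - f) := hadd _ _
          _ ≤ D * nrm (fn * fn - fn) + 2 * D * d * (1 - (1 / 2) ^ n) := by
              gcongr; exact step_move fn i4
          _ ≤ D * (d * (1 / 2) ^ n) + 2 * D * d * (1 - (1 / 2) ^ n) := by
              gcongr
              exact i1.trans (by gcongr)
          _ = _ := by ring
      refine ⟨j1, j2, ?_, ?_⟩
      · calc N (stp fn) ≤ K1 * N fn := step_N fn i4 hrn1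
          _ ≤ K1 * (K1 ^ n * N f) := by gcongr
          _ = _ := by ring
      · have : stp fn = (stp fn - f) + f := by abel
        rw [this]
        calc _ ≤ nrm (stp fn - f) + nrm f := hadd _ _
          _ ≤ 2 * D * d * (1 - (1 / 2) ^ (n + 1)) + M := by gcongr
          _ ≤ 2 * D * δ * 1 + M := by
              have hp : ((1:ℝ) / 2) ^ (n + 1) ≤ 1 := pow_le_one₀ (by norm_num) (by norm_num)
              have hp0 : (0:ℝ) < ((1:ℝ) / 2) ^ (n + 1) := by positivity
              have hx : 0 ≤ 1 - ((1:ℝ) / 2) ^ (n + 1) := by linarith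
              have hy : 1 - ((1:ℝ) / 2) ^ (n + 1) ≤ 1 := by linarith
              gcongr
          _ ≤ M1 := by linarith
  -- conclusion
  have bound : ∀ n : ℕ, ‖T f‖ - 2 * D * d ≤ (D * d + K * (d * N f)) * (1 / 2) ^ n := by
    intro n
    obtain ⟨i1, i2, i3, i4⟩ := inv n
    set fn := stp^[n] f with hfn
    have hp0 : (0:ℝ) < ((1:ℝ) / 2) ^ n := by positivity
    have t1 : ‖T fn‖ ≤ (D * d + K * (d * N f)) * (1 / 2) ^ n := by
      calc ‖T fn‖ ≤ nrm (fn * fn - fn) * (1 + 2 * nrm fn) + K * (nrm (fn * fn - fn) * N fn) := hkey fn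
        _ ≤ (d * (1 / (2 * K1)) ^ n) * (1 + 2 * M1) +
            K * ((d * (1 / (2 * K1)) ^ n) * (K1 ^ n * N f)) := by
            have := hn0 fn
            have := hN0 fn
            gcongr
        _ = D * d * (1 / (2 * K1)) ^ n + K * (d * N f) * ((1 / (2 * K1)) ^ n * K1 ^ n) := by
            rw [← hDM]; ring
        _ = D * d * (1 / (2 * K1)) ^ n + K * (d * N f) * (1 / 2) ^ n := by
            rw [← mul_pow]
            congr 3
            field_simp
        _ ≤ D * d * (1 / 2) ^ n + K * (d * N f) * (1 / 2) ^ n := by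
            gcongr
        _ = _ := by ring
    have t2 : ‖T f‖ ≤ ‖T fn‖ + nrm (fn - f) := by
      have : f = fn + -(fn - f) := by abel
      calc ‖T f‖ = ‖T fn + T (-(fn - f))‖ := by rw [← hTadd, ← this]
        _ ≤ ‖T fn‖ + ‖T (-(fn - f))‖ := norm_add_le _ _
        _ ≤ ‖T fn‖ + nrm (-(fn - f)) := by gcongr; exact hT _
        _ = _ := by rw [hneg]
    have t3 : 2 * D * d * (1 - (1 / 2) ^ n) ≤ 2 * D * d := by
      have : 0 ≤ 2 * D * d * ((1:ℝ) / 2) ^ n := by positivity
      nlinarith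
    linarith
  have lim : Filter.Tendsto (fun n : ℕ => (D * d + K * (d * N f)) * ((1:ℝ) / 2) ^ n)
      Filter.atTop (nhds ((D * d + K * (d * N f)) * 0)) :=
    (tendsto_pow_atTop_nhds_zero_of_lt_one (by norm_num) (by norm_num)).const_mul _
  have fin := ge_of_tendsto' lim bound
  rw [mul_zero] at fin
  linarith

end Vale.Agent.L1Bass
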