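import Vale.Agent.L1Bass.Defs
import Vale.Agent.L1Bass.Iterate
import Vale.Agent.L1Bass.Geo

set_option linter.unusedSectionVars false

namespace Vale.Agent.L1Bass

open Filter Topology MonoidAlgebra

universe u v

variable {G : Type u} [Group G]

lemma trace_small {q : ℕ} (C : ConjClasses G) (ω : G → G → ℂ) (K : ℝ) (L : G → ℝ) (hK : 0 ≤ K)
    (hL : ∀ g, 0 ≤ L g) (hLmul : ∀ g h, L (g * h) ≤ L g + L h)
    (hωL : ∀ x y, ‖ω x y‖ ≤ K * L y)
    (hcyc : ∀ x y z, ω x (y * z) = ω (x * y) z + ω (z * x) y)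
    (hω1 : ω 1 = chi C) (M : ℝ) (hM : 0 ≤ M) :
    ∃ δ : ℝ, 0 < δ ∧ ∀ f : Matrix (Fin q) (Fin q) (MonoidAlgebra ℂ G), WM (fun _ => 1) f ≤ M →
      WM (fun _ => 1) (f * f - f) ≤ δ →
      ‖trC (chi C) f‖ ≤ 2 * (3 + 2 * M) * WM (fun _ => 1) (f * f - f) := by
  have h1 : ∀ g : G, (0:ℝ) ≤ (fun _ => 1 : G → ℝ) g := fun _ => zero_le_one
  have hTadd : ∀ x y : Matrix (Fin q) (Fin q) (MonoidAlgebra ℂ G),
      trC (chi C) (x + y) = trC (chi C) x + trC (chi C) y := by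
    intro x y
    rw [← hω1, ← OmM_one, ← OmM_one, ← OmM_one, OmM_add_right]
  refine iterate_lemma (WM (fun _ => 1)) (WM L) (trC (chi C)) (6 * K) (by positivity)
    (WM_nonneg h1) (WM_nonneg hL) (WM_zero _) (WM_add_le h1) (WM_neg _) WM_one_mul
    (WM_add_le hL) (WM_neg _) (WM_L_mul hL hLmul) hTadd (norm_trC_le (norm_chi_le C)) ?_ M hM
  intro f
  set r := f * f - f with hr
  have hfr : f * f = f + r := by rw [hr]; abel
  have key := key_identity (OmM ω) (OmM_add_left ω) (OmM_add_right ω) (OmM_cyc hcyc) f r hfr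
  have e : ∀ x : Matrix (Fin q) (Fin q) (MonoidAlgebra ℂ G), OmM ω 1 x = trC (chi C) x := fun x => by
    rw [OmM_one, hω1]
  rw [e, e, e] at key
  have b1 := norm_trC_le (norm_chi_le C) r
  have b2 := norm_trC_le (norm_chi_le C) (f * r)
  have b3 := WM_one_mul f r
  have b4 := norm_OmM_le hK hL hωL r f
  calc ‖trC (chi C) f‖ = ‖-trC (chi C) r + 2 * trC (chi C) (f * r) - 6 * OmM ω r f‖ := by rw [key]
    _ ≤ ‖trC (chi C) r‖ + 2 * ‖trC (chi C) (f * r)‖ + 6 * ‖OmM ω r f‖ := by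
        refine (norm_sub_le _ _).trans ?_
        have a1 : ‖(6:ℂ) * OmM ω r f‖ = 6 * ‖OmM ω r f‖ := by rw [norm_mul]; norm_num
        have a2 : ‖(2:ℂ) * trC (chi C) (f * r)‖ = 2 * ‖trC (chi C) (f * r)‖ := by
          rw [norm_mul]; norm_num
        rw [a1]
        gcongr
        refine (norm_add_le _ _).trans ?_
        rw [norm_neg, a2]
    _ ≤ WM (fun _ => 1) r + 2 * (WM (fun _ => 1) f * WM (fun _ => 1) r) +
        6 * (K * (WM (fun _ => 1) r * WM L f)) := by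
        gcongr
        exact b2.trans b3
    _ = _ := by ring

/-- Abstract vanishing criterion. -/
theorem vanish_of_cocycle {q : ℕ} (C : ConjClasses G) (ω : G → G → ℂ) (K : ℝ) (L : G → ℝ)
    (hK : 0 ≤ K)
    (hL : ∀ g, 0 ≤ L g) (hLmul : ∀ g h, L (g * h) ≤ L g + L h)
    (hωL : ∀ x y, ‖ω x y‖ ≤ K * L y)
    (hcyc : ∀ x y z, ω x (y * z) = ω (x * y) z + ω (z * x) y)
    (hω1 : ω 1 = chi C) (e : Fin q → Fin q → G → ℂ) (he : IsL1Matrix e)
    (hid : IsIdempotentMatrix e) : hsCoeff e C = 0 := by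
  set M : ℝ := ∑ i, ∑ j, l1 (e i j) with hM
  have hM0 : 0 ≤ M := Finset.sum_nonneg fun i _ => Finset.sum_nonneg fun j _ => l1_nonneg _
  obtain ⟨δ, hδ, hδ'⟩ := trace_small (q := q) C ω K L hK hL hLmul hωL hcyc hω1 M hM0
  -- `‖hsCoeff e C‖ ≤ ε * const` for all small `ε`
  have main : ∀ ε : ℝ, 0 < ε → (2 * M + 1) * ε ≤ δ →
      ‖hsCoeff e C‖ ≤ ε + 2 * (3 + 2 * M) * ((2 * M + 1) * ε) := by
    intro ε hε hεδ
    obtain ⟨f, hf1, hf2, hf3⟩ := approx e he hid C ε hε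
    have h1 := hδ' f hf1 (hf2.trans hεδ)
    calc ‖hsCoeff e C‖ = ‖(hsCoeff e C - trC (chi C) f) + trC (chi C) f‖ := by rw [sub_add_cancel]
      _ ≤ ‖hsCoeff e C - trC (chi C) f‖ + ‖trC (chi C) f‖ := norm_add_le _ _
      _ ≤ ε + 2 * (3 + 2 * M) * WM (fun _ => 1) (f * f - f) := by gcongr
      _ ≤ _ := by gcongr
  by_contra hne
  have hpos : 0 < ‖hsCoeff e C‖ := norm_pos_iff.mpr hne
  set c0 : ℝ := 1 + 2 * (3 + 2 * M) * (2 * M + 1) with hc0
  have hc0pos : 0 < c0 := by positivity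
  set ε : ℝ := min (δ / (2 * M + 1)) (‖hsCoeff e C‖ / (2 * c0)) with hεdef
  have hε : 0 < ε := lt_min (by positivity) (by positivity)
  have h1 : (2 * M + 1) * ε ≤ δ := by
    calc (2 * M + 1) * ε ≤ (2 * M + 1) * (δ / (2 * M + 1)) := by
          gcongr; exact min_le_left _ _
      _ = δ := by field_simp
  have h2 := main ε hε h1
  have h3 : ε + 2 * (3 + 2 * M) * ((2 * M + 1) * ε) = c0 * ε := by rw [hc0]; ring
  have h4 : c0 * ε ≤ ‖hsCoeff e C‖ / 2 := by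
    calc c0 * ε ≤ c0 * (‖hsCoeff e C‖ / (2 * c0)) := by
          gcongr; exact min_le_right _ _
      _ = _ := by field_simp
  linarith

/-- Vanishing of the trace coefficient at elements acting hyperbolically. -/
theorem vanish_of_hyperbolic {q : ℕ} (g : G) (hg : ActsHyperbolically.{u, v} g)
    (e : Fin q → Fin q → G → ℂ) (he : IsL1Matrix e) (hid : IsIdempotentMatrix e) :
    hsCoeff e (ConjClasses.mk g) = 0 := by
  obtain ⟨X, _, _, hiso, hSP, p, c, hc, h⟩ := hg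
  obtain ⟨ω, K, hK, hωL, hcyc, hω1⟩ := exists_cocycle hiso hSP p g c hc h
  refine vanish_of_cocycle (ConjClasses.mk g) ω K (fun y => dist p (y • p)) hK
    (fun _ => dist_nonneg) ?_ hωL hcyc hω1 e he hid
  intro x y
  calc dist p ((x * y) • p) ≤ dist p (x • p) + dist (x • p) ((x * y) • p) := dist_triangle _ _ _
    _ = _ := by rw [mul_smul, hiso]

end Vale.Agent.L1Bass
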